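import Mathlib

/-! One-sample online rules on a matroid and their guarantee against an almighty adversary. -/

namespace Vale.Agent.P331.Windows

open MeasureTheory
open scoped ENNReal NNReal

variable {E : Type}

/-- The elements accepted when the elements of `l` arrive in this order: at each arrival the
decision sees the sample `S`, the earlier arrivals with their values, and the current one. -/
def accepted (decide : (E → ℝ≥0) → List (E × ℝ≥0) → E × ℝ≥0 → Bool)
    (S V : E → ℝ≥0) (l : List E) : Set E :=
  {e | ∃ l₁ l₂, l = l₁ ++ e :: l₂ ∧ decide S (l₁.map fun x => (x, V x)) (e, V e) = true}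

/-- A measurable online rule (for a fixed seed) on the matroid `M`: irrevocable decisions, made
from the sample and the arrivals so far, that always keep the accepted set independent. -/
structure OnlineRule (M : Matroid E) where
  /-- Accept or reject the current arrival. -/
  decide : (E → ℝ≥0) → List (E × ℝ≥0) → E × ℝ≥0 → Bool
  /-- The accepted set is independent. -/
  indep : ∀ (S V : E → ℝ≥0) (l : List E), l.Nodup → M.Indep (accepted decide S V l)
  /-- Every decision is a measurable function of sample and values. -/
  measurable : ∀ (l : List E) (e : E),
    MeasurableSet {p : (E → ℝ≥0) × (E → ℝ≥0) |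
      decide p.1 (l.map fun x => (x, p.2 x)) (e, p.2 e) = true}

/-- Total accepted value under the arrival order `π`. -/
noncomputable def payoff [Fintype E] {M : Matroid E} (rule : OnlineRule M) (S V : E → ℝ≥0)
    (π : Fin (Fintype.card E) ≃ E) : ℝ≥0∞ :=
  ∑ e, (accepted rule.decide S V (List.ofFn π)).indicator (fun x => (V x : ℝ≥0∞)) e

/-- Accepted value in the worst arrival order, chosen with full knowledge of `S`, `V`, the rule. -/
noncomputable def worst [Fintype E] {M : Matroid E} (rule : OnlineRule M) (S V : E → ℝ≥0) :
    ℝ≥0∞ :=
  ⨅ π : Fin (Fintype.card E) ≃ E, payoff rule S V π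

/-- The largest total value of an independent set. -/
noncomputable def opt (M : Matroid E) (V : E → ℝ≥0) : ℝ≥0∞ :=
  ⨆ (I : Finset E) (_ : M.Indep ↑I), ∑ e ∈ I, (V e : ℝ≥0∞)

end Vale.Agent.P331.Windows
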