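import Vale.Agent.P331.Windows.Opt

/-! Product-law identities: a coordinate is independent of what ignores it. -/

namespace Vale.Agent.P331.Windows

open MeasureTheory Set Function
open scoped ENNReal NNReal Classical

variable {E : Type} [Fintype E] (D : E → Measure ℝ≥0) [∀ e, IsProbabilityMeasure (D e)]

lemma measurable_update' (e : E) :
    Measurable fun p : (E → ℝ≥0) × ℝ≥0 => update p.1 e p.2 := by
  refine measurable_pi_iff.2 fun i => ?_
  by_cases h : i = e
  · subst h; simpa using measurable_snd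
  · simp only [update_of_ne h]
    exact (measurable_pi_apply i).comp measurable_fst

lemma map_update (e : E) :
    ((Measure.pi D).prod (D e)).map (fun p => update p.1 e p.2) = Measure.pi D := by
  refine (Measure.pi_eq fun s hs => ?_).symm
  rw [Measure.map_apply (measurable_update' e) (MeasurableSet.univ_pi hs)]
  have h : (fun p : (E → ℝ≥0) × ℝ≥0 => update p.1 e p.2) ⁻¹' Set.univ.pi s =
      (Set.univ.pi (update s e univ)) ×ˢ s e := by
    ext ⟨x, t⟩
    simp only [mem_preimage, mem_univ_pi, mem_prod]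
    constructor
    · intro h
      refine ⟨fun i => ?_, by simpa using h e⟩
      by_cases hi : i = e
      · subst hi; simp
      · simpa [hi] using h i
    · rintro ⟨h1, h2⟩ i
      by_cases hi : i = e
      · subst hi; simpa using h2
      · simpa [hi] using h1 i
  rw [h, Measure.prod_prod, Measure.pi_pi, ← Finset.mul_prod_erase _ _ (Finset.mem_univ e),
    ← Finset.mul_prod_erase _ (fun i => D i (s i)) (Finset.mem_univ e)]
  simp only [update_self, measure_univ, one_mul]
  rw [mul_comm]
  congr 1
  exact Finset.prod_congr rfl fun i hi => by rw [update_of_ne (Finset.mem_erase.1 hi).1]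

/-- A coordinate is independent of everything that ignores it. -/
lemma lintegral_coord (e : E) {F : ℝ≥0 → ℝ≥0∞} (hF : Measurable F) {H : (E → ℝ≥0) → ℝ≥0∞}
    (hH : Measurable H) (hinv : ∀ x t, H (update x e t) = H x) :
    ∫⁻ x, F (x e) * H x ∂Measure.pi D = (∫⁻ t, F t ∂D e) * ∫⁻ x, H x ∂Measure.pi D := by
  conv_lhs => rw [← map_update D e]
  rw [lintegral_map (f := fun x => F (x e) * H x) ((hF.comp (measurable_pi_apply e)).mul hH)
    (measurable_update' e)]
  simp only [update_self, hinv]
  calc ∫⁻ p, F p.2 * H p.1 ∂(Measure.pi D).prod (D e)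
      = ∫⁻ p, H p.1 * F p.2 ∂(Measure.pi D).prod (D e) := by simp_rw [mul_comm]
    _ = _ := by rw [lintegral_prod_mul hH.aemeasurable hF.aemeasurable, mul_comm]

lemma lintegral_fst' {H : (E → ℝ≥0) → ℝ≥0∞} (hH : Measurable H) :
    ∫⁻ p, H p.1 ∂(Measure.pi D).prod (Measure.pi D) = ∫⁻ x, H x ∂Measure.pi D := by
  rw [lintegral_prod (fun p : (E → ℝ≥0) × (E → ℝ≥0) => H p.1)
    (hH.comp measurable_fst).aemeasurable]
  simp

lemma lintegral_snd' {H : (E → ℝ≥0) → ℝ≥0∞} (hH : Measurable H) :
    ∫⁻ p, H p.2 ∂(Measure.pi D).prod (Measure.pi D) = ∫⁻ x, H x ∂Measure.pi D := by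
  rw [lintegral_prod (fun p : (E → ℝ≥0) × (E → ℝ≥0) => H p.2)
    (hH.comp measurable_snd).aemeasurable]
  simp

/-- Of two independent copies, the first is at most the second with probability a half. -/
lemma prod_le_swap {Ω : Type*} [MeasurableSpace Ω] (μ : Measure Ω) [SFinite μ] (A : Set Ω)
    (f : Ω → ℝ≥0) :
    μ A * μ A ≤ 2 * (μ.prod μ) {p | p.1 ∈ A ∧ p.2 ∈ A ∧ f p.1 ≤ f p.2} := by
  set C := {p : Ω × Ω | p.1 ∈ A ∧ p.2 ∈ A ∧ f p.1 ≤ f p.2}
  have hmp : MeasurePreserving (Prod.swap : Ω × Ω → Ω × Ω) (μ.prod μ) (μ.prod μ) :=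
    ⟨measurable_swap, Measure.prod_swap⟩
  have h : A ×ˢ A ⊆ C ∪ Prod.swap ⁻¹' C := by
    rintro ⟨x, y⟩ ⟨hx, hy⟩
    rcases le_total (f x) (f y) with h | h
    exacts [Or.inl ⟨hx, hy, h⟩, Or.inr ⟨hy, hx, h⟩]
  rw [← Measure.prod_prod]
  refine (measure_mono h).trans ((measure_union_le _ _).trans ?_)
  rw [two_mul]
  refine add_le_add le_rfl (le_of_eq ?_)
  exact hmp.measure_preimage_emb MeasurableEquiv.prodComm.measurableEmbedding C

variable (M : Matroid E)

/-- Probability that the sample does not span `e` at level `n`. -/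
noncomputable def G (e : E) (n : ℤ) : ℝ≥0∞ :=
  Measure.pi D {x | e ∉ M.closure (above M n x \ {e})}

lemma G_le_one (e : E) (n : ℤ) : G D M e n ≤ 1 := prob_le_one

lemma G_mono (e : E) {m n : ℤ} (h : m ≤ n) : G D M e m ≤ G D M e n :=
  measure_mono fun _ hx hcl => hx (M.closure_subset_closure
    (sdiff_subset_sdiff_left (above_anti M h _)) hcl)

/-- Indicator of `e` not being spanned at level `n`. -/
noncomputable def free (e : E) (n : ℤ) (x : E → ℝ≥0) : ℝ≥0∞ :=
  if e ∉ M.closure (above M n x \ {e}) then 1 else 0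

lemma measurableSet_free (e : E) (n : ℤ) :
    MeasurableSet {x | e ∉ M.closure (above M n x \ {e})} :=
  Gate.measurableSet_setValued (T := fun x => above M n x \ {e})
    (fun f => (measurableSet_mem_above M n f).diff (MeasurableSet.const _))
    (fun X => e ∉ M.closure X)

lemma measurable_free (e : E) (n : ℤ) : Measurable (free M e n) :=
  Measurable.ite (measurableSet_free M e n) measurable_const measurable_const

lemma lintegral_free (e : E) (n : ℤ) : ∫⁻ x, free M e n x ∂Measure.pi D = G D M e n := by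
  rw [G, ← lintegral_indicator_one (measurableSet_free M e n)]
  refine lintegral_congr fun x => ?_
  simp [free, Set.indicator_apply]

lemma free_update (e : E) (n : ℤ) (x : E → ℝ≥0) (t : ℝ≥0) :
    free M e n (update x e t) = free M e n x := by
  have h : above M n (update x e t) \ {e} = above M n x \ {e} := by
    ext f
    simp only [mem_sdiff, mem_singleton_iff, above, mem_ofPred_eq]
    refine ⟨fun ⟨h, hf⟩ => ⟨by simpa [hf] using h, hf⟩, fun ⟨h, hf⟩ => ⟨by simpa [hf] using h, hf⟩⟩
  rw [free, free, h]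

/-- A value weight times `free` on the same copy. -/
lemma lintegral_free_same (e : E) (n : ℤ) {F : ℝ≥0 → ℝ≥0∞} (hF : Measurable F) :
    ∫⁻ p, F (p.2 e) * free M e n p.2 ∂(Measure.pi D).prod (Measure.pi D) =
      (∫⁻ t, F t ∂D e) * G D M e n := by
  rw [lintegral_snd' D (H := fun x => F (x e) * free M e n x)
      ((hF.comp (measurable_pi_apply e)).mul (measurable_free M e n)),
    lintegral_coord D e hF (measurable_free M e n) (free_update M e n), lintegral_free]

/-- A value weight times `free` on the other copy. -/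
lemma lintegral_free_other (e : E) (n : ℤ) {F : ℝ≥0 → ℝ≥0∞} (hF : Measurable F) :
    ∫⁻ p, F (p.2 e) * free M e n p.1 ∂(Measure.pi D).prod (Measure.pi D) =
      (∫⁻ t, F t ∂D e) * G D M e n := by
  have h1 := lintegral_coord D e hF (measurable_const (a := (1 : ℝ≥0∞))) (fun _ _ => rfl)
  simp only [mul_one, lintegral_const, measure_univ] at h1
  calc ∫⁻ p, F (p.2 e) * free M e n p.1 ∂(Measure.pi D).prod (Measure.pi D)
      = ∫⁻ p, free M e n p.1 * F (p.2 e) ∂(Measure.pi D).prod (Measure.pi D) := by
        simp_rw [mul_comm]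
    _ = _ := by
        rw [lintegral_prod_mul (f := free M e n) (g := fun y : E → ℝ≥0 => F (y e))
          (measurable_free M e n).aemeasurable (hF.comp (measurable_pi_apply e)).aemeasurable,
          lintegral_free, h1, mul_comm]

lemma measurableSet_InBk (j : ℤ) : MeasurableSet {v | InBk j v} :=
  measurableSet_Ico (a := lev j) (b := lev (j + 1))

lemma measurable_wt (s : Finset ℤ) : Measurable (wt s) :=
  Finset.measurable_sum _ fun j _ =>
    Measurable.ite (measurableSet_InBk j) measurable_const measurable_const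

/-- Probability that the value of `e` lies in bucket `j`. -/
noncomputable def q (e : E) (j : ℤ) : ℝ≥0∞ := D e {v | InBk j v}

lemma lintegral_wt (e : E) (s : Finset ℤ) :
    ∫⁻ t, (wt s t : ℝ≥0∞) ∂D e = ∑ j ∈ s, (lev j : ℝ≥0∞) * q D e j := by
  have h : ∀ t, (wt s t : ℝ≥0∞) =
      ∑ j ∈ s, Set.indicator {v | InBk j v} (fun _ => (lev j : ℝ≥0∞)) t := by
    intro t
    rw [wt, ENNReal.ofNNReal_finsetSum]
    refine Finset.sum_congr rfl fun j _ => ?_
    by_cases hb : InBk j t <;> simp [hb]
  simp_rw [h]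
  rw [lintegral_finsetSum _ fun j _ => measurable_const.indicator (measurableSet_InBk j)]
  refine Finset.sum_congr rfl fun j _ => ?_
  rw [lintegral_indicator_const (measurableSet_InBk j), q]

/-- Expected rank at level `n`. -/
noncomputable def f (n : ℤ) : ℝ≥0∞ := ∫⁻ x, (rk M (above M n x) : ℝ≥0∞) ∂Measure.pi D

lemma measurable_rk_above (n : ℤ) :
    Measurable fun x : E → ℝ≥0 => (rk M (above M n x) : ℝ≥0∞) := by
  have h : Measurable fun x : E → ℝ≥0 => rk M (above M n x) :=
    measurable_to_countable' fun m => Gate.measurableSet_setValued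
      (T := fun x => above M n x) (measurableSet_mem_above M n) fun X => rk M X = m
  exact (measurable_from_top (f := fun m : ℕ => (m : ℝ≥0∞))).comp h

lemma f_ne_top (n : ℤ) : f D M n ≠ ⊤ := by
  refine ne_top_of_le_ne_top (ENNReal.natCast_ne_top M.eRank.toNat) ?_
  calc f D M n ≤ ∫⁻ _, (M.eRank.toNat : ℝ≥0∞) ∂Measure.pi D :=
        lintegral_mono fun x => Nat.cast_le.2 (rk_le_rank M _)
    _ = M.eRank.toNat := by simp

end Vale.Agent.P331.Windows
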