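import Vale.Agent.P331.Windows.Pointwise
import Vale.Agent.P331.Windows.Prob

/-! Expected guarantees of the window rules. -/

namespace Vale.Agent.P331.Windows

open MeasureTheory Set
open scoped ENNReal NNReal Classical

variable {E : Type} [Fintype E] (D : E → Measure ℝ≥0) [∀ e, IsProbabilityMeasure (D e)]

/-- Expected accepted value against the worst order. -/
noncomputable def pay {M : Matroid E} (rule : OnlineRule M) : ℝ≥0∞ :=
  ∫⁻ p, worst rule p.1 p.2 ∂(Measure.pi D).prod (Measure.pi D)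

variable (M : Matroid E)

/-- Weight of the value of levels in `[a, b)` not spanned by the sample `d` levels further down. -/
noncomputable def Φ (a b : ℤ) (d : ℕ) : ℝ≥0∞ :=
  ∑ j ∈ Finset.Ico a b, ∑ e ∈ nl M, (lev j : ℝ≥0∞) * q D e j * G D M e (j - d)

lemma Φ_anti (a b : ℤ) {d d' : ℕ} (h : d ≤ d') : Φ D M a b d' ≤ Φ D M a b d :=
  Finset.sum_le_sum fun j _ => Finset.sum_le_sum fun e _ =>
    mul_le_mul' le_rfl (G_mono D M e (by omega))

lemma q_le_one (e : E) (j : ℤ) : q D e j ≤ 1 := prob_le_one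

lemma Φ_ne_top (a b : ℤ) (d : ℕ) : Φ D M a b d ≠ ⊤ := by
  refine ENNReal.sum_ne_top.2 fun j _ => ENNReal.sum_ne_top.2 fun e _ => ?_
  exact ENNReal.mul_ne_top (ENNReal.mul_ne_top ENNReal.coe_ne_top
    (ne_top_of_le_ne_top ENNReal.one_ne_top (q_le_one D e j)))
    (ne_top_of_le_ne_top ENNReal.one_ne_top (G_le_one D M e _))

lemma reindex_window (a b : ℤ) (W : ℕ) (F : ℤ → ℤ → ℝ≥0∞) :
    ∑ lo ∈ Finset.Ico (a - W) b,
        ∑ j ∈ (Finset.Ico a b).filter (fun j => lo ≤ j ∧ j < lo + W), F j lo =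
      ∑ x ∈ Finset.range W, ∑ j ∈ Finset.Ico a b, F j (j - x) := by
  rw [Finset.sum_comm' (s' := fun j : ℤ => Finset.Ioc (j - W) j) (t' := Finset.Ico a b),
    Finset.sum_comm (s := Finset.range W)]
  · refine Finset.sum_congr rfl fun j _ => ?_
    refine Finset.sum_nbij' (fun lo => (j - lo).toNat) (fun x => j - (x : ℤ)) ?_ ?_ ?_ ?_ ?_
    · intro lo h; simp only [Finset.mem_Ioc] at h; simp only [Finset.mem_range]; omega
    · intro x h; simp only [Finset.mem_range] at h; simp only [Finset.mem_Ioc]; omega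
    · intro lo h; simp only [Finset.mem_Ioc] at h; omega
    · intro x _; simp
    · intro lo h; simp only [Finset.mem_Ioc] at h
      congr 1; omega
  · intro lo j
    simp only [Finset.mem_Ico, Finset.mem_filter, Finset.mem_Ioc]
    omega

lemma sum_residues (P : ℕ) (hP : 0 < P) (W : ℕ) (s : Finset ℤ) (F : ℤ → ℝ≥0∞) :
    ∑ o ∈ Finset.range P, ∑ lo ∈ s.filter (fun lo : ℤ => (lo + W) % P = o), F lo =
      ∑ lo ∈ s, F lo := by
  rw [← Finset.sum_fiberwise_of_maps_to (s := s) (t := Finset.range P)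
    (g := fun lo : ℤ => ((lo + W) % P).toNat) (fun lo _ => ?_) F]
  · refine Finset.sum_congr rfl fun o _ => ?_
    congr 1
    refine Finset.filter_congr fun lo _ => ?_
    have := Int.emod_nonneg (lo + W) (show (P : ℤ) ≠ 0 by omega)
    omega
  · have h1 := Int.emod_nonneg (lo + W) (show (P : ℤ) ≠ 0 by omega)
    have h2 := Int.emod_lt_of_pos (lo + W) (show (0 : ℤ) < P by omega)
    rw [Finset.mem_range]; omega

lemma class_eq {P W : ℕ} {lo : ℤ} {o : ℕ} (h : (lo + W) % P = o) :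
    lo + W = o + ((lo + W) / P - 1 + 1) * P ∧
      (o : ℤ) + ((lo + W) / P - 1) * P = lo + W - P := by
  have := Int.emod_add_mul_ediv (lo + W) P
  rw [h] at this
  constructor <;> linarith

lemma class_injOn {P W o : ℕ} (s : Finset ℤ) :
    Set.InjOn (fun lo : ℤ => (lo + W) / P - 1) ↑(s.filter fun lo : ℤ => (lo + W) % P = o) := by
  intro x hx y hy hxy
  simp only [Finset.coe_filter, Set.mem_ofPred_eq] at hx hy
  have h1 := (class_eq hx.2).1
  have h2 := (class_eq hy.2).1
  simp only at hxy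
  rw [hxy] at h1
  linarith

lemma ite_mul_free (n : ℤ) (e : E) (x : E → ℝ≥0) (w : ℝ≥0) :
    (((if e ∉ M.closure (above M n x \ {e}) then w else 0) : ℝ≥0) : ℝ≥0∞) =
      (w : ℝ≥0∞) * free M e n x := by
  unfold free; split_ifs <;> simp

/-- One offset of the window rules, pointwise. -/
lemma window_pointwise (a b : ℤ) (W H o : ℕ) (S V : E → ℝ≥0) :
    ∑ lo ∈ (Finset.Ico (a - W) b).filter (fun lo : ℤ => (lo + W) % ((W + H : ℕ) : ℤ) = o),
        ∑ e ∈ nl M, (wt ((Finset.Ico a b).filter fun j => lo ≤ j ∧ j < lo + W) (V e) : ℝ≥0∞) *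
          free M e lo V ≤
      worst (winGate M o (W + H) W).rule S V +
        ((∑ lo ∈ (Finset.Ico (a - W) b).filter (fun lo : ℤ => (lo + W) % ((W + H : ℕ) : ℤ) = o),
            (lev (lo + W) : ℝ≥0∞) * rk M (above M (lo + W) S)) +
          ∑ lo ∈ (Finset.Ico (a - W) b).filter (fun lo : ℤ => (lo + W) % ((W + H : ℕ) : ℤ) = o),
            ∑ e ∈ nl M, (wt ((Finset.Ico a b).filter fun j => lo ≤ j ∧ j < lo + W) (V e) : ℝ≥0∞) *
              free M e (lo - H) S) := by
  rw [worst, ENNReal.iInf_add]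
  refine le_iInf fun π => ?_
  set Lo := (Finset.Ico (a - W) b).filter (fun lo : ℤ => (lo + W) % ((W + H : ℕ) : ℤ) = o) with hLo
  set g := winGate M o (W + H) W with hg
  set κ : ℤ → ℤ := fun lo => (lo + W) / ((W + H : ℕ) : ℤ) - 1 with hκ
  have hpart : ((∑ lo ∈ Lo, ∑ e ∈ g.partF S V π (κ lo), V e : ℝ≥0) : ℝ≥0∞) ≤
      payoff g.rule S V π := by
    refine le_trans ?_ (g.sum_parts_le S V π (Lo.image κ))
    rw [Finset.sum_image (class_injOn _)]
  refine le_trans ?_ (add_le_add hpart le_rfl)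
  rw [← add_assoc, ENNReal.ofNNReal_finsetSum, ← Finset.sum_add_distrib, ← Finset.sum_add_distrib]
  refine Finset.sum_le_sum fun lo hlo => ?_
  obtain ⟨hc1, hc2⟩ := class_eq (Finset.mem_filter.1 hlo).2
  have key := win_bridge (M := M) S V π (o := o) (P := W + H) (W := W) (c := κ lo) hc1
    (fun e => wt ((Finset.Ico a b).filter fun j => lo ≤ j ∧ j < lo + W) (V e)) ?_ ?_ ?_
  · rw [hc2, show lo + (W : ℤ) - ((W + H : ℕ) : ℤ) = lo - H by push_cast; ring] at key
    have key' := ENNReal.coe_le_coe.2 key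
    simp only [ENNReal.coe_add, ENNReal.coe_mul, ENNReal.coe_natCast, ENNReal.ofNNReal_finsetSum,
      ite_mul_free] at key'
    rw [ENNReal.ofNNReal_finsetSum]
    exact key'
  · intro e
    rcases wt_cases ((Finset.Ico a b).filter fun j => lo ≤ j ∧ j < lo + W) (V e) with
      h | ⟨j, -, hb, h⟩
    · rw [h]; exact zero_le
    · rw [h]; exact hb.1
  · intro e
    rcases wt_cases ((Finset.Ico a b).filter fun j => lo ≤ j ∧ j < lo + W) (V e) with
      h | ⟨j, hj, -, h⟩
    · rw [h]; exact zero_le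
    · rw [h]; exact lev_mono (Finset.mem_filter.1 hj).2.2.le
  · intro e he
    rcases wt_cases ((Finset.Ico a b).filter fun j => lo ≤ j ∧ j < lo + W) (V e) with
      h | ⟨j, hj, hb, -⟩
    · exact absurd h he
    · exact (lev_mono (Finset.mem_filter.1 hj).2.1).trans hb.1

lemma measurable_wt_eval (s : Finset ℤ) (e : E) :
    Measurable fun p : (E → ℝ≥0) × (E → ℝ≥0) => (wt s (p.2 e) : ℝ≥0∞) :=
  ((measurable_wt s).comp ((measurable_pi_apply e).comp measurable_snd)).coe_nnreal_ennreal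

lemma measurable_wt_free_same (s : Finset ℤ) (e : E) (n : ℤ) :
    Measurable fun p : (E → ℝ≥0) × (E → ℝ≥0) => (wt s (p.2 e) : ℝ≥0∞) * free M e n p.2 :=
  (measurable_wt_eval s e).mul ((measurable_free M e n).comp measurable_snd)

lemma measurable_wt_free_other (s : Finset ℤ) (e : E) (n : ℤ) :
    Measurable fun p : (E → ℝ≥0) × (E → ℝ≥0) => (wt s (p.2 e) : ℝ≥0∞) * free M e n p.1 :=
  (measurable_wt_eval s e).mul ((measurable_free M e n).comp measurable_fst)

lemma measurable_const_rk (c : ℝ≥0∞) (n : ℤ) :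
    Measurable fun x : E → ℝ≥0 => c * (rk M (above M n x) : ℝ≥0∞) :=
  measurable_const.mul (measurable_rk_above M n)

lemma measurable_const_rk_fst (c : ℝ≥0∞) (n : ℤ) :
    Measurable fun p : (E → ℝ≥0) × (E → ℝ≥0) => c * (rk M (above M n p.1) : ℝ≥0∞) :=
  (measurable_const_rk M c n).comp measurable_fst

lemma measurable_const_rk_snd (c : ℝ≥0∞) (n : ℤ) :
    Measurable fun p : (E → ℝ≥0) × (E → ℝ≥0) => c * (rk M (above M n p.2) : ℝ≥0∞) :=
  (measurable_const_rk M c n).comp measurable_snd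

lemma measurable_ind_free (j n : ℤ) (e : E) :
    Measurable fun p : (E → ℝ≥0) × (E → ℝ≥0) =>
      Set.indicator {v | lev j ≤ v} (fun _ => (lev j : ℝ≥0∞)) (p.2 e) * free M e n p.1 :=
  ((measurable_const.indicator (measurableSet_Ici (a := lev j))).comp
    ((measurable_pi_apply e).comp measurable_snd)).mul
      ((measurable_free M e n).comp measurable_fst)

lemma lintegral_rk_fst (c : ℝ≥0∞) (n : ℤ) :
    ∫⁻ p, c * (rk M (above M n p.1) : ℝ≥0∞) ∂(Measure.pi D).prod (Measure.pi D) =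
      c * f D M n := by
  rw [lintegral_fst' D (H := fun x => c * (rk M (above M n x) : ℝ≥0∞))
    (measurable_const_rk M c n), lintegral_const_mul _ (measurable_rk_above M n), f]

lemma lintegral_rk_snd (c : ℝ≥0∞) (n : ℤ) :
    ∫⁻ p, c * (rk M (above M n p.2) : ℝ≥0∞) ∂(Measure.pi D).prod (Measure.pi D) =
      c * f D M n := by
  rw [lintegral_snd' D (H := fun x => c * (rk M (above M n x) : ℝ≥0∞))
    (measurable_const_rk M c n), lintegral_const_mul _ (measurable_rk_above M n), f]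

lemma lintegral_sum_wt_same (L : Finset ℤ) (s : ℤ → Finset ℤ) :
    ∫⁻ p, (∑ lo ∈ L, ∑ e ∈ nl M, (wt (s lo) (p.2 e) : ℝ≥0∞) * free M e lo p.2)
        ∂(Measure.pi D).prod (Measure.pi D) =
      ∑ lo ∈ L, ∑ e ∈ nl M, (∫⁻ t, (wt (s lo) t : ℝ≥0∞) ∂D e) * G D M e lo := by
  rw [lintegral_finsetSum _ fun lo _ => Finset.measurable_sum _ fun e _ =>
    measurable_wt_free_same M (s lo) e lo]
  refine Finset.sum_congr rfl fun lo _ => ?_
  rw [lintegral_finsetSum _ fun e _ => measurable_wt_free_same M (s lo) e lo]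
  exact Finset.sum_congr rfl fun e _ =>
    lintegral_free_same D M e lo (measurable_wt (s lo)).coe_nnreal_ennreal

lemma lintegral_sum_wt_other (L : Finset ℤ) (s : ℤ → Finset ℤ) (H : ℕ) :
    ∫⁻ p, (∑ lo ∈ L, ∑ e ∈ nl M, (wt (s lo) (p.2 e) : ℝ≥0∞) * free M e (lo - H) p.1)
        ∂(Measure.pi D).prod (Measure.pi D) =
      ∑ lo ∈ L, ∑ e ∈ nl M, (∫⁻ t, (wt (s lo) t : ℝ≥0∞) ∂D e) * G D M e (lo - H) := by
  rw [lintegral_finsetSum _ fun lo _ => Finset.measurable_sum _ fun e _ =>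
    measurable_wt_free_other M (s lo) e (lo - H)]
  refine Finset.sum_congr rfl fun lo _ => ?_
  rw [lintegral_finsetSum _ fun e _ => measurable_wt_free_other M (s lo) e (lo - H)]
  exact Finset.sum_congr rfl fun e _ =>
    lintegral_free_other D M e (lo - H) (measurable_wt (s lo)).coe_nnreal_ennreal

lemma window_step (a b : ℤ) (W H o : ℕ) :
    ∑ lo ∈ (Finset.Ico (a - W) b).filter (fun lo : ℤ => (lo + W) % ((W + H : ℕ) : ℤ) = o),
        ∑ e ∈ nl M, (∫⁻ t, (wt ((Finset.Ico a b).filter fun j => lo ≤ j ∧ j < lo + W) t : ℝ≥0∞)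
          ∂D e) * G D M e lo ≤
      pay D (winGate M o (W + H) W).rule +
        ((∑ lo ∈ (Finset.Ico (a - W) b).filter (fun lo : ℤ => (lo + W) % ((W + H : ℕ) : ℤ) = o),
            (lev (lo + W) : ℝ≥0∞) * f D M (lo + W)) +
          ∑ lo ∈ (Finset.Ico (a - W) b).filter (fun lo : ℤ => (lo + W) % ((W + H : ℕ) : ℤ) = o),
            ∑ e ∈ nl M, (∫⁻ t, (wt ((Finset.Ico a b).filter fun j => lo ≤ j ∧ j < lo + W) t : ℝ≥0∞)
              ∂D e) * G D M e (lo - H)) := by
  set L := (Finset.Ico (a - W) b).filter (fun lo : ℤ => (lo + W) % ((W + H : ℕ) : ℤ) = o) with hL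
  rw [← lintegral_sum_wt_same D M L fun lo => (Finset.Ico a b).filter fun j => lo ≤ j ∧ j < lo + W]
  have hpw := fun p : (E → ℝ≥0) × (E → ℝ≥0) => window_pointwise M a b W H o p.1 p.2
  simp only [← hL] at hpw
  refine le_trans (lintegral_mono hpw) ?_
  have hm1 : Measurable fun p : (E → ℝ≥0) × (E → ℝ≥0) =>
      ∑ lo ∈ L, (lev (lo + W) : ℝ≥0∞) * rk M (above M (lo + W) p.1) :=
    Finset.measurable_sum _ fun lo _ => measurable_const_rk_fst M _ _
  have hm2 : Measurable fun p : (E → ℝ≥0) × (E → ℝ≥0) => ∑ lo ∈ L, ∑ e ∈ nl M,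
      (wt ((Finset.Ico a b).filter fun j => lo ≤ j ∧ j < lo + W) (p.2 e) : ℝ≥0∞) *
        free M e (lo - H) p.1 :=
    Finset.measurable_sum _ fun lo _ => Finset.measurable_sum _ fun e _ =>
      measurable_wt_free_other M _ e _
  rw [lintegral_add_right _ (hm1.fun_add hm2), lintegral_add_right _ hm2]
  refine add_le_add le_rfl (add_le_add (le_of_eq ?_) (le_of_eq ?_))
  · rw [lintegral_finsetSum _ fun lo _ => measurable_const_rk_fst M _ _]
    exact Finset.sum_congr rfl fun lo _ => lintegral_rk_fst D M _ _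
  · exact lintegral_sum_wt_other D M L _ H

/-- The window rules, in expectation. -/
lemma window_expected (a b : ℤ) (W H : ℕ) (hW : 0 < W) :
    ∑ x ∈ Finset.range W, Φ D M a b x ≤
      ∑ o ∈ Finset.range (W + H), pay D (winGate M o (W + H) W).rule +
        ((∑ lo ∈ Finset.Ico (a - W) b, (lev (lo + W) : ℝ≥0∞) * f D M (lo + W)) +
          ∑ x ∈ Finset.range W, Φ D M a b (x + H)) := by
  have hA : ∀ (K : ℕ), ∑ lo ∈ Finset.Ico (a - W) b, ∑ e ∈ nl M,
      (∫⁻ t, (wt ((Finset.Ico a b).filter fun j => lo ≤ j ∧ j < lo + W) t : ℝ≥0∞) ∂D e) *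
        G D M e (lo - K) = ∑ x ∈ Finset.range W, Φ D M a b (x + K) := by
    intro K
    simp only [lintegral_wt, Finset.sum_mul]
    rw [Finset.sum_congr rfl fun lo _ => Finset.sum_comm,
      reindex_window a b W fun j lo => ∑ e ∈ nl M, (lev j : ℝ≥0∞) * q D e j * G D M e (lo - K)]
    simp only [Φ, Nat.cast_add, sub_sub]
  have hA0 := hA 0
  simp only [Nat.cast_zero, sub_zero, add_zero] at hA0
  have := Finset.sum_le_sum fun o (_ : o ∈ Finset.range (W + H)) => window_step D M a b W H o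
  rw [Finset.sum_add_distrib, Finset.sum_add_distrib,
    sum_residues (W + H) (by omega) W, sum_residues (W + H) (by omega) W,
    sum_residues (W + H) (by omega) W, hA H, hA0] at this
  exact this

lemma loss_le (a b : ℤ) (W : ℕ) (hab : a ≤ b) :
    ∑ lo ∈ Finset.Ico (a - W) b, (lev (lo + W) : ℝ≥0∞) * f D M (lo + W) ≤
      2 * ∫⁻ x, opt M x ∂Measure.pi D := by
  have h1 : ∑ lo ∈ Finset.Ico (a - W) b, (lev (lo + W) : ℝ≥0∞) * f D M (lo + W) =
      ∫⁻ x, ((∑ n ∈ Finset.Ico a (a + ((b - a).toNat + W : ℕ)),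
        lev n * rk M (above M n x) : ℝ≥0) : ℝ≥0∞) ∂Measure.pi D := by
    simp only [ENNReal.ofNNReal_finsetSum, ENNReal.coe_mul, ENNReal.coe_natCast]
    rw [lintegral_finsetSum _ fun n _ => measurable_const_rk M _ n]
    refine Finset.sum_nbij' (fun lo => lo + W) (fun n => n - W) ?_ ?_ ?_ ?_ ?_
    · intro lo h; simp only [Finset.mem_Ico] at h ⊢; omega
    · intro n h; simp only [Finset.mem_Ico] at h ⊢; omega
    · intro lo _; simp
    · intro n _; simp
    · intro lo _
      rw [lintegral_const_mul _ (measurable_rk_above M _), f]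
  rw [h1, ← lintegral_const_mul' _ _ (by norm_num)]
  exact lintegral_mono fun x => levels_le_opt x a _

/-- A scale `m`: the drop of `Φ` between `m` and `2 m` is paid for. -/
lemma scale_step (a b : ℤ) (hab : a ≤ b) (m : ℕ) (hm : 0 < m) :
    (m : ℝ≥0∞) * Φ D M a b m ≤
      ∑ o ∈ Finset.range (4 * m), pay D (winGate M o (4 * m) (2 * m)).rule +
        2 * (∫⁻ x, opt M x ∂Measure.pi D) + (m : ℝ≥0∞) * Φ D M a b (2 * m) := by
  have h := window_expected D M a b (2 * m) (2 * m) (by omega)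
  rw [show 2 * m + 2 * m = 4 * m by ring] at h
  replace h := h.trans (add_le_add le_rfl (add_le_add (loss_le D M a b (2 * m) hab) le_rfl))
  rw [show 2 * m = m + m by ring, Finset.sum_range_add, Finset.sum_range_add,
    show m + m = 2 * m by ring] at h
  set X := ∑ x ∈ Finset.range m, Φ D M a b (m + x) with hX
  have hXfin : X ≠ ⊤ := ENNReal.sum_ne_top.2 fun x _ => Φ_ne_top D M a b _
  have h1 : (m : ℝ≥0∞) * Φ D M a b m ≤ ∑ x ∈ Finset.range m, Φ D M a b x := by
    rw [← nsmul_eq_mul]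
    refine le_trans ?_ (Finset.card_nsmul_le_sum _ _ (Φ D M a b m)
      fun x hx => Φ_anti D M a b (Finset.mem_range.1 hx).le)
    rw [Finset.card_range]
  have h2 : ∑ x ∈ Finset.range m, Φ D M a b (x + 2 * m) ≤ (m : ℝ≥0∞) * Φ D M a b (2 * m) := by
    refine (Finset.sum_le_card_nsmul _ _ (Φ D M a b (2 * m))
      fun x _ => Φ_anti D M a b (by omega)).trans ?_
    rw [Finset.card_range, nsmul_eq_mul]
  have h3 : ∑ x ∈ Finset.range m, Φ D M a b (m + x + 2 * m) ≤ X :=
    Finset.sum_le_sum fun x _ => Φ_anti D M a b (by omega)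
  refine ENNReal.le_of_add_le_add_right hXfin ?_
  refine (add_le_add h1 le_rfl).trans (h.trans ?_)
  rw [← add_assoc, ← add_assoc]
  exact add_le_add (add_le_add le_rfl h2) h3

lemma count_pointwise (a b : ℤ) (H o : ℕ) (S V : E → ℝ≥0) :
    ∑ j ∈ (Finset.Ico a b).filter (fun j : ℤ => (j + (1 : ℕ)) % ((1 + H : ℕ) : ℤ) = o),
        (lev j : ℝ≥0∞) * rk M (above M j V) ≤
      worst (winGate M o (1 + H) 1).rule S V +
        ((∑ j ∈ (Finset.Ico a b).filter (fun j : ℤ => (j + (1 : ℕ)) % ((1 + H : ℕ) : ℤ) = o),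
            (lev j : ℝ≥0∞) * rk M (above M (j + 1) S)) +
          ∑ j ∈ (Finset.Ico a b).filter (fun j : ℤ => (j + (1 : ℕ)) % ((1 + H : ℕ) : ℤ) = o),
            ∑ e ∈ nl M, (Set.indicator {v | lev j ≤ v} (fun _ => (lev j : ℝ≥0∞)) (V e)) *
              free M e (j - H) S) := by
  rw [worst, ENNReal.iInf_add]
  refine le_iInf fun π => ?_
  set Lo := (Finset.Ico a b).filter (fun j : ℤ => (j + (1 : ℕ)) % ((1 + H : ℕ) : ℤ) = o) with hLo
  set g := winGate M o (1 + H) 1 with hg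
  set κ : ℤ → ℤ := fun j => (j + (1 : ℕ)) / ((1 + H : ℕ) : ℤ) - 1 with hκ
  have hpart : ((∑ j ∈ Lo, ∑ e ∈ g.partF S V π (κ j), V e : ℝ≥0) : ℝ≥0∞) ≤
      payoff g.rule S V π := by
    refine le_trans ?_ (g.sum_parts_le S V π (Lo.image κ))
    rw [Finset.sum_image (class_injOn _)]
  refine le_trans ?_ (add_le_add hpart le_rfl)
  rw [← add_assoc, ENNReal.ofNNReal_finsetSum, ← Finset.sum_add_distrib, ← Finset.sum_add_distrib]
  refine Finset.sum_le_sum fun j hj => ?_
  obtain ⟨hc1, hc2⟩ := class_eq (Finset.mem_filter.1 hj).2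
  have key := win_count (M := M) S V π (o := o) (P := 1 + H) (W := 1) (c := κ j) hc1
  rw [hc2, show j + ((1 : ℕ) : ℤ) - ((1 + H : ℕ) : ℤ) = j - H by push_cast; ring,
    Nat.cast_one] at key
  have key' := ENNReal.coe_le_coe.2 key
  simp only [ENNReal.coe_add, ENNReal.coe_mul, ENNReal.coe_natCast,
    ENNReal.ofNNReal_finsetSum] at key'
  rw [ENNReal.ofNNReal_finsetSum]
  refine key'.trans (add_le_add le_rfl (le_of_eq (Finset.sum_congr rfl fun e _ => ?_)))
  by_cases hv : lev j ≤ V e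
  · simp only [hv, true_and, free]
    split_ifs <;> simp [hv]
  · simp [hv]

/-- Probability that the value of `e` reaches level `j`. -/
noncomputable def tailProb (e : E) (j : ℤ) : ℝ≥0∞ := D e {v | lev j ≤ v}

lemma count_step (a b : ℤ) (H o : ℕ) :
    ∑ j ∈ (Finset.Ico a b).filter (fun j : ℤ => (j + (1 : ℕ)) % ((1 + H : ℕ) : ℤ) = o),
        (lev j : ℝ≥0∞) * f D M j ≤
      pay D (winGate M o (1 + H) 1).rule +
        ((∑ j ∈ (Finset.Ico a b).filter (fun j : ℤ => (j + (1 : ℕ)) % ((1 + H : ℕ) : ℤ) = o),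
            (lev j : ℝ≥0∞) * f D M (j + 1)) +
          ∑ j ∈ (Finset.Ico a b).filter (fun j : ℤ => (j + (1 : ℕ)) % ((1 + H : ℕ) : ℤ) = o),
            ∑ e ∈ nl M, (lev j : ℝ≥0∞) * tailProb D e j * G D M e (j - H)) := by
  set L := (Finset.Ico a b).filter (fun j : ℤ => (j + (1 : ℕ)) % ((1 + H : ℕ) : ℤ) = o) with hL
  have hl : ∫⁻ p, (∑ j ∈ L, (lev j : ℝ≥0∞) * rk M (above M j p.2))
      ∂(Measure.pi D).prod (Measure.pi D) = ∑ j ∈ L, (lev j : ℝ≥0∞) * f D M j := by
    rw [lintegral_finsetSum _ fun j _ => measurable_const_rk_snd M _ j]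
    exact Finset.sum_congr rfl fun j _ => lintegral_rk_snd D M _ _
  rw [← hl]
  have hpw := fun p : (E → ℝ≥0) × (E → ℝ≥0) => count_pointwise M a b H o p.1 p.2
  simp only [← hL] at hpw
  refine le_trans (lintegral_mono hpw) ?_
  have hm1 : Measurable fun p : (E → ℝ≥0) × (E → ℝ≥0) =>
      ∑ j ∈ L, (lev j : ℝ≥0∞) * rk M (above M (j + 1) p.1) :=
    Finset.measurable_sum _ fun j _ => measurable_const_rk_fst M _ _
  have hm2 : Measurable fun p : (E → ℝ≥0) × (E → ℝ≥0) => ∑ j ∈ L, ∑ e ∈ nl M,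
      Set.indicator {v | lev j ≤ v} (fun _ => (lev j : ℝ≥0∞)) (p.2 e) * free M e (j - H) p.1 :=
    Finset.measurable_sum _ fun j _ => Finset.measurable_sum _ fun e _ =>
      measurable_ind_free M j _ e
  rw [lintegral_add_right _ (hm1.fun_add hm2), lintegral_add_right _ hm2]
  refine add_le_add le_rfl (add_le_add (le_of_eq ?_) (le_of_eq ?_))
  · rw [lintegral_finsetSum _ fun j _ => measurable_const_rk_fst M _ _]
    exact Finset.sum_congr rfl fun j _ => lintegral_rk_fst D M _ _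
  · rw [lintegral_finsetSum _ fun j _ => Finset.measurable_sum _ fun e _ =>
      measurable_ind_free M j _ e]
    refine Finset.sum_congr rfl fun j _ => ?_
    rw [lintegral_finsetSum _ fun e _ => measurable_ind_free M j _ e]
    refine Finset.sum_congr rfl fun e _ => ?_
    rw [lintegral_free_other D M e _ (F := {v | lev j ≤ v}.indicator fun _ => (lev j : ℝ≥0∞))
      (measurable_const.indicator (measurableSet_Ici (a := lev j))), tailProb]
    congr 1
    exact lintegral_indicator_const (measurableSet_Ici (a := lev j)) _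

/-- The base rules, in expectation. -/
lemma count_expected (a b : ℤ) (H : ℕ) :
    ∑ j ∈ Finset.Ico a b, (lev j : ℝ≥0∞) * f D M j ≤
      ∑ o ∈ Finset.range (1 + H), pay D (winGate M o (1 + H) 1).rule +
        ((∑ j ∈ Finset.Ico a b, (lev j : ℝ≥0∞) * f D M (j + 1)) +
          ∑ j ∈ Finset.Ico a b, ∑ e ∈ nl M,
            (lev j : ℝ≥0∞) * tailProb D e j * G D M e (j - H)) := by
  have := Finset.sum_le_sum fun o (_ : o ∈ Finset.range (1 + H)) => count_step D M a b H o
  rwa [Finset.sum_add_distrib, Finset.sum_add_distrib, sum_residues (1 + H) (by omega) 1,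
    sum_residues (1 + H) (by omega) 1, sum_residues (1 + H) (by omega) 1] at this

end Vale.Agent.P331.Windows
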