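import Vale.Agent.P331.Windows.Defs

/-! Gated greedy rules: each class is filled greedily modulo a set read off from the sample. -/

namespace Vale.Agent.P331.Windows

open MeasureTheory Set
open scoped ENNReal NNReal Classical

/-- Classes indexed by `ℤ`, a threshold and a set to span modulo, all read from the sample. -/
structure Gate {E : Type} (M : Matroid E) where
  /-- `Cls S c e`: the element `e` belongs to class `c`. -/
  Cls : (E → ℝ≥0) → ℤ → E → Prop
  /-- Acceptable values in class `c`. -/
  Thr : (E → ℝ≥0) → ℤ → ℝ≥0 → Prop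
  /-- Class `c` is filled modulo this set. -/
  Z : (E → ℝ≥0) → ℤ → Set E
  ground : ∀ {S c e}, Cls S c e → e ∈ M.E
  up : ∀ {S c c' e}, Cls S c e → c' < c → e ∈ M.closure (Z S c')
  out : ∀ {S c e}, Cls S c e → e ∉ M.closure (Z S c)
  cls_meas : ∀ c e, MeasurableSet {S | Cls S c e}
  thr_meas : ∀ c e, MeasurableSet {p : (E → ℝ≥0) × (E → ℝ≥0) | Thr p.1 c (p.2 e)}
  z_meas : ∀ c e, MeasurableSet {S | e ∈ Z S c}

namespace Gate

variable {E : Type} {M : Matroid E} (g : Gate M)

lemma cls_unique {S c c' e} (h : g.Cls S c e) (h' : g.Cls S c' e) : c = c' := by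
  rcases lt_trichotomy c c' with hl | hl | hl
  · exact absurd (g.up h' hl) (g.out h)
  · exact hl
  · exact absurd (g.up h hl) (g.out h')

/-- The arrival `x` is taken when `A` has been accepted so far. -/
def Next (S : E → ℝ≥0) (A : Set E) (x : E × ℝ≥0) : Prop :=
  ∃ c, g.Cls S c x.1 ∧ g.Thr S c x.2 ∧ x.1 ∉ M.closure (g.Z S c ∪ {f | f ∈ A ∧ g.Cls S c f})

/-- The accepted set after the arrivals in the list. -/
def acc (S : E → ℝ≥0) (l : List (E × ℝ≥0)) : Set E :=
  l.foldl (fun A x => A ∪ {e | e = x.1 ∧ g.Next S A x}) ∅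

lemma acc_concat (S : E → ℝ≥0) (l : List (E × ℝ≥0)) (x : E × ℝ≥0) :
    g.acc S (l ++ [x]) = g.acc S l ∪ {e | e = x.1 ∧ g.Next S (g.acc S l) x} := by
  simp [acc, List.foldl_append]

/-- The decision function. -/
noncomputable def decide' (S : E → ℝ≥0) (past : List (E × ℝ≥0)) (x : E × ℝ≥0) : Bool :=
  if g.Next S (g.acc S past) x then true else false

lemma decide'_iff (S : E → ℝ≥0) (past : List (E × ℝ≥0)) (x : E × ℝ≥0) :
    g.decide' S past x = true ↔ g.Next S (g.acc S past) x := by
  unfold decide'; split_ifs with h <;> simp [h]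

/-- The accepted set on the values `V` in the order `l`. -/
def out' (S V : E → ℝ≥0) (l : List E) : Set E := g.acc S (l.map fun x => (x, V x))

lemma out'_concat (S V : E → ℝ≥0) (l : List E) (x : E) :
    g.out' S V (l ++ [x]) =
      g.out' S V l ∪ {e | e = x ∧ g.Next S (g.out' S V l) (x, V x)} := by
  simp [out', acc_concat]

lemma accepted_eq (S V : E → ℝ≥0) (l : List E) :
    accepted g.decide' S V l = g.out' S V l := by
  induction l using List.reverseRecOn with
  | nil => ext e; simp [accepted, out', acc]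
  | append_singleton l x ih =>
    ext e
    rw [out'_concat, ← ih]
    simp only [accepted, mem_union, mem_ofPred_eq]
    constructor
    · rintro ⟨l₁, l₂, h, hd⟩
      rcases List.eq_nil_or_concat l₂ with rfl | ⟨l₃, y, rfl⟩
      · obtain ⟨rfl, hx⟩ := List.append_inj' h rfl
        obtain rfl : x = e := by simpa using hx
        refine Or.inr ⟨rfl, ?_⟩
        have := (g.decide'_iff _ _ _).1 hd
        rwa [← out', ← ih] at this
      · have : l ++ [x] = (l₁ ++ e :: l₃) ++ [y] := by simpa using h
        obtain ⟨rfl, -⟩ := List.append_inj' this rfl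
        exact Or.inl ⟨l₁, l₃, rfl, hd⟩
    · rintro (⟨l₁, l₂, rfl, hd⟩ | ⟨rfl, hd⟩)
      · exact ⟨l₁, l₂ ++ [x], by simp, hd⟩
      · refine ⟨l, [], rfl, (g.decide'_iff _ _ _).2 ?_⟩
        rw [← out', ← ih]; exact hd

lemma out'_mono (S V : E → ℝ≥0) (l₁ l₂ : List E) :
    g.out' S V l₁ ⊆ g.out' S V (l₁ ++ l₂) := by
  induction l₂ using List.reverseRecOn with
  | nil => simp
  | append_singleton l x ih =>
    rw [← List.append_assoc, out'_concat]
    exact ih.trans subset_union_left

/-- Accepted elements pass the gate. -/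
lemma mem_out' {S V : E → ℝ≥0} {l : List E} {f : E} (h : f ∈ g.out' S V l) :
    ∃ c, g.Cls S c f ∧ g.Thr S c (V f) := by
  rw [← accepted_eq] at h
  obtain ⟨l₁, l₂, -, hd⟩ := h
  obtain ⟨c, h1, h2, -⟩ := (g.decide'_iff _ _ _).1 hd
  exact ⟨c, h1, h2⟩

/-- The accepted elements of class `c`. -/
def part (S V : E → ℝ≥0) (l : List E) (c : ℤ) : Set E :=
  {f | f ∈ g.out' S V l ∧ g.Cls S c f}

/-- Every candidate is spanned, at the end, by its class. -/
lemma maximal {S V : E → ℝ≥0} {l : List E} {e : E} (he : e ∈ l) {c : ℤ}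
    (hc : g.Cls S c e) (ht : g.Thr S c (V e)) :
    e ∈ M.closure (g.Z S c ∪ g.part S V l c) := by
  obtain ⟨l₁, l₂, rfl⟩ := List.append_of_mem he
  by_cases hn : e ∈ M.closure (g.Z S c ∪ g.part S V l₁ c)
  · exact M.closure_subset_closure
      (union_subset_union_right _ fun f hf => And.intro (g.out'_mono S V _ _ hf.1) hf.2) hn
  · refine M.mem_closure_of_mem' (Or.inr ⟨?_, hc⟩) (g.ground hc)
    have hmem : e ∈ g.out' S V (l₁ ++ [e]) := by
      rw [out'_concat]
      exact Or.inr ⟨rfl, c, hc, ht, hn⟩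
    have := g.out'_mono S V (l₁ ++ [e]) l₂ hmem
    simpa using this

lemma part_indep (S V : E → ℝ≥0) (l : List E) : ∀ c, ∀ f ∈ g.part S V l c,
    f ∉ M.closure (g.Z S c ∪ (g.part S V l c \ {f})) := by
  induction l using List.reverseRecOn with
  | nil => intro c f hf; simp [part, out', acc] at hf
  | append_singleton l x ih =>
    intro c f hf hcl
    have hsub : g.part S V l c ⊆ g.part S V (l ++ [x]) c :=
      fun a ha => ⟨g.out'_mono S V _ _ ha.1, ha.2⟩
    by_cases hx : g.Next S (g.out' S V l) (x, V x)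
    · by_cases hcx : g.Cls S c x
      · have hnx : x ∉ M.closure (g.Z S c ∪ g.part S V l c) := by
          obtain ⟨c', h1, -, h3⟩ := hx
          obtain rfl : c' = c := g.cls_unique h1 hcx
          exact h3
        have hpart : g.part S V (l ++ [x]) c = insert x (g.part S V l c) := by
          ext a
          simp only [part, mem_ofPred_eq, out'_concat, mem_union, mem_insert_iff]
          constructor
          · rintro ⟨h | ⟨rfl, -⟩, h'⟩
            exacts [Or.inr ⟨h, h'⟩, Or.inl rfl]
          · rintro (rfl | ⟨h, h'⟩)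
            exacts [⟨Or.inr ⟨rfl, hx⟩, hcx⟩, ⟨Or.inl h, h'⟩]
        rw [hpart] at hf hcl
        by_cases hfx : f = x
        · subst hfx
          exact hnx (M.closure_subset_closure
            (union_subset_union_right _ (by rintro a ⟨rfl | ha, ha'⟩; exacts [absurd rfl ha', ha]))
            hcl)
        · have hf' : f ∈ g.part S V l c := hf.resolve_left hfx
          have h0 := ih c f hf'
          have h1 : f ∈ M.closure (insert x (g.Z S c ∪ (g.part S V l c \ {f}))) := by
            refine M.closure_subset_closure ?_ hcl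
            rintro a (ha | ⟨rfl | ha, ha'⟩)
            exacts [Or.inr (Or.inl ha), Or.inl rfl, Or.inr (Or.inr ⟨ha, ha'⟩)]
          have h2 := Matroid.mem_closure_insert h0 h1
          refine hnx (M.closure_subset_closure ?_ h2)
          rintro a (rfl | ha | ⟨ha, -⟩)
          exacts [Or.inr hf', Or.inl ha, Or.inr ha]
      · have hpart : g.part S V (l ++ [x]) c = g.part S V l c := by
          refine subset_antisymm ?_ hsub
          rintro a ⟨ha, ha'⟩
          rw [out'_concat] at ha
          rcases ha with h | ⟨rfl, -⟩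
          exacts [⟨h, ha'⟩, absurd ha' hcx]
        rw [hpart] at hf hcl
        exact ih c f hf hcl
    · have hpart : g.part S V (l ++ [x]) c = g.part S V l c := by
        refine subset_antisymm ?_ hsub
        rintro a ⟨ha, ha'⟩
        rw [out'_concat] at ha
        rcases ha with h | ⟨-, h⟩
        exacts [⟨h, ha'⟩, absurd h hx]
      rw [hpart] at hf hcl
      exact ih c f hf hcl

lemma out'_indep [Finite E] (S V : E → ℝ≥0) (l : List E) : M.Indep (g.out' S V l) := by
  have hE : g.out' S V l ⊆ M.E := fun f hf => by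
    obtain ⟨c, hc, -⟩ := g.mem_out' hf
    exact g.ground hc
  rw [Matroid.indep_iff_forall_subset_not_isCircuit hE]
  intro C hC hcirc
  have : ∀ f ∈ C, ∃ c, g.Cls S c f := fun f hf => by
    obtain ⟨c, hc, -⟩ := g.mem_out' (hC hf)
    exact ⟨c, hc⟩
  choose! κ hκ using this
  obtain ⟨e, he, hmin⟩ := Set.exists_min_image C κ C.toFinite hcirc.nonempty
  have h1 : C \ {e} ⊆ M.closure (g.Z S (κ e) ∪ (g.part S V l (κ e) \ {e})) := by
    rintro f ⟨hf, hfe⟩
    rcases (hmin f hf).lt_or_eq with hlt | heq
    · exact M.closure_subset_closure subset_union_left (g.up (hκ f hf) hlt)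
    · refine M.mem_closure_of_mem' (Or.inr ⟨⟨hC hf, ?_⟩, hfe⟩) (hE (hC hf))
      rw [heq]; exact hκ f hf
  exact g.part_indep S V l (κ e) e ⟨hC he, hκ e he⟩
    (M.closure_subset_closure_of_subset_closure h1
      (hcirc.mem_closure_sdiff_singleton_of_mem he))

/-- A property of a random set with measurable memberships is measurable. -/
lemma measurableSet_setValued {Ω : Type*} [MeasurableSpace Ω] [Finite E] {T : Ω → Set E}
    (hT : ∀ f, MeasurableSet {ω | f ∈ T ω}) (P : Set E → Prop) :
    MeasurableSet {ω | P (T ω)} := by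
  have := Fintype.ofFinite E
  have h : {ω | P (T ω)} =
      ⋃ X ∈ {X : Set E | P X}, ⋂ f, {ω | f ∈ T ω ↔ f ∈ X} := by
    ext ω
    simp only [mem_ofPred_eq, mem_iUnion, mem_iInter, exists_prop]
    refine ⟨fun h => ⟨T ω, h, fun f => Iff.rfl⟩, ?_⟩
    rintro ⟨X, hX, hiff⟩
    rwa [Set.ext hiff]
  rw [h]
  refine MeasurableSet.biUnion (Set.to_countable _) fun X _ => MeasurableSet.iInter fun f => ?_
  by_cases hf : f ∈ X
  · simpa [hf] using hT f
  · simp only [hf, iff_false]; exact (hT f).compl

lemma measurableSet_next [Finite E] {T : (E → ℝ≥0) × (E → ℝ≥0) → Set E}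
    (hT : ∀ f, MeasurableSet {p | f ∈ T p}) (e : E) :
    MeasurableSet {p : (E → ℝ≥0) × (E → ℝ≥0) | g.Next p.1 (T p) (e, p.2 e)} := by
  have h : {p : (E → ℝ≥0) × (E → ℝ≥0) | g.Next p.1 (T p) (e, p.2 e)} =
      ⋃ c : ℤ, ({p | g.Cls p.1 c e} ∩ ({p | g.Thr p.1 c (p.2 e)} ∩
        {p | e ∉ M.closure (g.Z p.1 c ∪ {f | f ∈ T p ∧ g.Cls p.1 c f})})) := by
    ext p; simp [Next]
  rw [h]
  refine MeasurableSet.iUnion fun c => (measurable_fst (g.cls_meas c e)).inter
    ((g.thr_meas c e).inter ?_)
  refine measurableSet_setValued (T := fun p => g.Z p.1 c ∪ {f | f ∈ T p ∧ g.Cls p.1 c f})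
    (fun f => ?_) (fun X => e ∉ M.closure X)
  exact (measurable_fst (g.z_meas c f)).union ((hT f).inter (measurable_fst (g.cls_meas c f)))

lemma measurableSet_mem_out' [Finite E] (l : List E) : ∀ f,
    MeasurableSet {p : (E → ℝ≥0) × (E → ℝ≥0) | f ∈ g.out' p.1 p.2 l} := by
  induction l using List.reverseRecOn with
  | nil => intro f; simp [out', acc]
  | append_singleton l x ih =>
    intro f
    have h : {p : (E → ℝ≥0) × (E → ℝ≥0) | f ∈ g.out' p.1 p.2 (l ++ [x])} =
        {p | f ∈ g.out' p.1 p.2 l} ∪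
          ({_p | f = x} ∩ {p | g.Next p.1 (g.out' p.1 p.2 l) (x, p.2 x)}) := by
      ext p; simp [out'_concat]
    rw [h]
    exact (ih f).union ((MeasurableSet.const _).inter (g.measurableSet_next ih x))

/-- The online rule of a gate. -/
noncomputable def rule [Finite E] : OnlineRule M where
  decide := g.decide'
  indep S V l _ := by rw [accepted_eq]; exact g.out'_indep S V l
  measurable l e := by
    simp only [decide'_iff]
    exact g.measurableSet_next (g.measurableSet_mem_out' l) e

lemma rule_accepted [Finite E] (S V : E → ℝ≥0) (l : List E) :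
    accepted g.rule.decide S V l = g.out' S V l :=
  g.accepted_eq S V l

lemma payoff_rule [Fintype E] (S V : E → ℝ≥0) (π : Fin (Fintype.card E) ≃ E) :
    payoff g.rule S V π =
      ∑ e ∈ Finset.univ.filter (fun e => e ∈ g.out' S V (List.ofFn π)), (V e : ℝ≥0∞) := by
  rw [payoff, rule_accepted, Finset.sum_filter]
  simp [Set.indicator_apply]

end Gate

end Vale.Agent.P331.Windows
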