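import Vale.Agent.P331.Windows.Rank

/-! Dyadic levels, the three families of rules and their deterministic guarantees. -/

namespace Vale.Agent.P331.Windows

open MeasureTheory Set
open scoped ENNReal NNReal Classical

variable {E : Type} [Fintype E] (M : Matroid E)

/-- The level `2 ^ n`. -/
noncomputable def lev (n : ℤ) : ℝ≥0 := (2 : ℝ≥0) ^ n

lemma lev_pos (n : ℤ) : 0 < lev n := zpow_pos (by norm_num) n

lemma lev_mono {m n : ℤ} (h : m ≤ n) : lev m ≤ lev n :=
  zpow_le_zpow_right₀ (by norm_num) h

lemma lev_add (m n : ℤ) : lev (m + n) = lev m * lev n := zpow_add₀ (by norm_num) m n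

lemma lev_succ (n : ℤ) : lev (n + 1) = 2 * lev n := by
  rw [lev_add, mul_comm]; simp [lev]

lemma lev_natCast (k : ℕ) : lev (k : ℤ) = 2 ^ k := zpow_natCast _ _

/-- The nonloops. -/
noncomputable def nl : Finset E := Finset.univ.filter M.IsNonloop

lemma mem_nl {e : E} : e ∈ nl M ↔ M.IsNonloop e := by simp [nl]

/-- The nonloops of value at least `2 ^ n`. -/
def above (n : ℤ) (x : E → ℝ≥0) : Set E := {e | M.IsNonloop e ∧ lev n ≤ x e}

lemma above_anti {m n : ℤ} (h : m ≤ n) (x : E → ℝ≥0) : above M n x ⊆ above M m x :=
  fun _ he => ⟨he.1, (lev_mono h).trans he.2⟩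

/-- The largest value of a nonloop. -/
noncomputable def maxVal (x : E → ℝ≥0) : ℝ≥0 := (nl M).sup x

lemma le_maxVal {e : E} (he : M.IsNonloop e) (x : E → ℝ≥0) : x e ≤ maxVal M x :=
  Finset.le_sup (f := x) ((mem_nl M).2 he)

lemma measurableSet_mem_above (n : ℤ) (e : E) : MeasurableSet {x | e ∈ above M n x} := by
  by_cases he : M.IsNonloop e
  · simpa [above, he] using measurableSet_le measurable_const (measurable_pi_apply e)
  · simp [above, he]

lemma measurable_maxVal : Measurable (maxVal M) := by
  unfold maxVal
  induction nl M using Finset.induction with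
  | empty => simp only [Finset.sup_empty]; exact measurable_const
  | insert a s _ ih =>
    simp only [Finset.sup_insert]
    exact (measurable_pi_apply a).max ih

/-- Greedy above a sample-dependent threshold. -/
def thrGate (T : (E → ℝ≥0) → ℝ≥0 → Prop)
    (hT : ∀ e, MeasurableSet {p : (E → ℝ≥0) × (E → ℝ≥0) | T p.1 (p.2 e)}) : Gate M where
  Cls _ c e := c = 0 ∧ M.IsNonloop e
  Thr S _ v := T S v
  Z _ c := if c < 0 then univ else ∅
  ground h := h.2.mem_ground
  up := by
    rintro S c c' e ⟨rfl, he⟩ hc
    simp only [hc, if_true]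
    exact M.mem_closure_of_mem' (mem_univ _) he.mem_ground
  out := by
    rintro S c e ⟨rfl, he⟩
    simp only [lt_irrefl, if_false, Matroid.closure_empty]
    exact fun h => (Matroid.isLoop_iff.2 h).not_isNonloop he
  cls_meas _ _ := MeasurableSet.const _
  thr_meas _ e := hT e
  z_meas _ _ := MeasurableSet.const _

/-- Windows with period `P` and offset `o`: class `c` holds what the sample spans at level
`o + c P` but not at level `o + (c + 1) P`; its threshold is level `o + (c + 1) P - W`. -/
noncomputable def winGate (o P W : ℕ) : Gate M where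
  Cls S c e := e ∈ M.closure (above M (o + c * P) S) ∧
    e ∉ M.closure (above M (o + (c + 1) * P) S)
  Thr _ c v := lev (o + (c + 1) * P - W) ≤ v
  Z S c := above M (o + (c + 1) * P) S
  ground h := M.closure_subset_ground _ h.1
  up := by
    rintro S c c' e ⟨he, -⟩ hc
    refine M.closure_subset_closure (above_anti M ?_ S) he
    have hc' : c' + 1 ≤ c := by omega
    have := mul_le_mul_of_nonneg_right hc' (Int.natCast_nonneg P)
    linarith
  out h := h.2
  cls_meas c e :=
    (Gate.measurableSet_setValued (T := fun S => above M (o + c * P) S)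
      (measurableSet_mem_above M _) fun X => e ∈ M.closure X).inter
    (Gate.measurableSet_setValued (T := fun S => above M (o + (c + 1) * P) S)
      (measurableSet_mem_above M _) fun X => e ∉ M.closure X)
  thr_meas _ e := measurableSet_le measurable_const ((measurable_pi_apply e).comp measurable_snd)
  z_meas _ e := measurableSet_mem_above M _ e

end Vale.Agent.P331.Windows
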