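import Vale.Agent.P331.Windows.Singles

/-! One sample per element: a ratio of order `1 / log log rank` against the almighty adversary. -/

namespace Vale.Agent.P331.Windows

open MeasureTheory Set Filter
open scoped ENNReal NNReal Classical Topology

variable {E : Type} [Fintype E] (D : E → Measure ℝ≥0) [∀ e, IsProbabilityMeasure (D e)]
  (M : Matroid E)

/-- Expected optimum. -/
noncomputable def eOpt : ℝ≥0∞ := ∫⁻ V, opt M V ∂Measure.pi D

lemma eOpt_band (a : ℤ) (k : ℕ) :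
    eOpt D M + 2 * ∑ j ∈ Finset.Ico a (a + k), (lev j : ℝ≥0∞) * f D M (j + 1) ≤
      2 * tailVal D M (a + k) + (M.eRank.toNat : ℝ≥0∞) * lev a +
        2 * ∑ j ∈ Finset.Ico a (a + k), (lev j : ℝ≥0∞) * f D M j := by
  have h := lintegral_mono (μ := Measure.pi D) fun x => opt_band_le (M := M) x a k
  simp only [ENNReal.coe_add, ENNReal.coe_mul, ENNReal.coe_natCast, ENNReal.coe_ofNat,
    ENNReal.ofNNReal_finsetSum] at h
  have hm : ∀ (g : ℤ → ℤ), Measurable fun x : E → ℝ≥0 =>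
      2 * ∑ j ∈ Finset.Ico a (a + k), (lev j : ℝ≥0∞) * rk M (above M (g j) x) := fun g =>
    (Finset.measurable_sum _ fun j _ => measurable_const_rk M _ _).const_mul _
  have hi : ∀ (g : ℤ → ℤ), ∫⁻ x, 2 * ∑ j ∈ Finset.Ico a (a + k),
      (lev j : ℝ≥0∞) * rk M (above M (g j) x) ∂Measure.pi D =
      2 * ∑ j ∈ Finset.Ico a (a + k), (lev j : ℝ≥0∞) * f D M (g j) := by
    intro g
    rw [lintegral_const_mul _ (Finset.measurable_sum _ fun j _ => measurable_const_rk M _ _),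
      lintegral_finsetSum _ fun j _ => measurable_const_rk M _ _]
    congr 1
    refine Finset.sum_congr rfl fun j _ => ?_
    rw [lintegral_const_mul _ (measurable_rk_above M _), f]
  rw [lintegral_add_right _ (hm fun j => j + 1), lintegral_add_right _ (hm fun j => j),
    hi fun j => j + 1, hi fun j => j, lintegral_add_right _ measurable_const] at h
  have htl : ∀ e, Measurable fun x : E → ℝ≥0 => (tl (a + k) (x e) : ℝ≥0∞) := fun e =>
    (measurable_tl _).comp (measurable_pi_apply e)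
  rw [lintegral_const_mul _ (Finset.measurable_sum _ fun e _ => htl e),
    lintegral_finsetSum _ fun e _ => htl e, lintegral_const, measure_univ, mul_one] at h
  refine h.trans (le_of_eq ?_)
  congr 3
  refine Finset.sum_congr rfl fun e _ => ?_
  have h1 := lintegral_coord D e (measurable_tl (a + k)) (measurable_const (a := (1 : ℝ≥0∞)))
    (fun _ _ => rfl)
  simpa using h1

lemma sum_lev_le (a : ℤ) (k : ℕ) : ∑ j ∈ Finset.Ico a (a + k), lev j ≤ lev (a + k) := by
  induction k with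
  | zero => simp
  | succ k ih =>
    have hIco : Finset.Ico a (a + ((k + 1 : ℕ) : ℤ)) = insert (a + k) (Finset.Ico a (a + k)) := by
      ext x; simp only [Finset.mem_insert, Finset.mem_Ico]; omega
    have e2 : a + ((k + 1 : ℕ) : ℤ) = a + k + 1 := by push_cast; ring
    rw [hIco, Finset.sum_insert (by simp), e2, lev_succ, two_mul]
    exact add_le_add le_rfl ih

lemma prefix_le (a b : ℤ) (v : ℝ≥0) (c : ℤ → ℝ≥0∞) (hc : ∀ j, c j ≤ 1) (hmono : Monotone c) :
    ∑ j ∈ Finset.Ico a b, {v | lev j ≤ v}.indicator (fun _ => (lev j : ℝ≥0∞)) v * c j ≤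
      2 * ∑ i ∈ Finset.Ico a b, {v | InBk i v}.indicator (fun _ => (lev i : ℝ≥0∞)) v * c i +
        (tl b v : ℝ≥0∞) := by
  set J := Finset.Ico a b with hJ
  set Jv := J.filter fun j => lev j ≤ v with hJv
  have hl : ∑ j ∈ J, {v | lev j ≤ v}.indicator (fun _ => (lev j : ℝ≥0∞)) v * c j =
      ∑ j ∈ Jv, (lev j : ℝ≥0∞) * c j := by
    rw [hJv, Finset.sum_filter]
    refine Finset.sum_congr rfl fun j _ => ?_
    by_cases h : lev j ≤ v <;> simp [h]
  rw [hl]
  rcases Jv.eq_empty_or_nonempty with h | hne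
  · simp [h]
  · obtain ⟨i, hi, hmax⟩ := Finset.exists_max_image Jv (fun j => j) hne
    obtain ⟨hiJ, hiv⟩ := Finset.mem_filter.1 hi
    rw [hJ, Finset.mem_Ico] at hiJ
    have hsub : Jv ⊆ Finset.Ico a (a + (((i + 1 - a).toNat : ℕ) : ℤ)) := by
      intro j hj
      have h1 : a ≤ j := (Finset.mem_Ico.1 (Finset.mem_filter.1 hj).1).1
      have h2 : j ≤ i := hmax j hj
      simp only [Finset.mem_Ico]; omega
    have hgeom : (∑ j ∈ Jv, (lev j : ℝ≥0∞)) ≤ 2 * (lev i : ℝ≥0∞) := by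
      rw [← ENNReal.ofNNReal_finsetSum]
      have := (Finset.sum_le_sum_of_subset (f := lev) hsub).trans (sum_lev_le a _)
      rw [show a + (((i + 1 - a).toNat : ℕ) : ℤ) = i + 1 by omega, lev_succ] at this
      exact_mod_cast this
    by_cases hv : lev b ≤ v
    · refine le_trans ?_ le_add_self
      rw [tl, if_pos hv]
      calc ∑ j ∈ Jv, (lev j : ℝ≥0∞) * c j ≤ ∑ j ∈ Jv, (lev j : ℝ≥0∞) :=
            Finset.sum_le_sum fun j _ => mul_le_of_le_one_right zero_le (hc j)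
        _ ≤ 2 * (lev i : ℝ≥0∞) := hgeom
        _ ≤ (v : ℝ≥0∞) := by
            have : 2 * lev i ≤ lev b := (lev_succ i).symm.le.trans (lev_mono (by omega))
            exact_mod_cast this.trans hv
    · refine le_trans ?_ le_self_add
      have hbk : InBk i v := by
        refine ⟨hiv, lt_of_not_ge fun h => ?_⟩
        by_cases hib : i + 1 < b
        · have := hmax (i + 1) (Finset.mem_filter.2 ⟨Finset.mem_Ico.2 ⟨by omega, hib⟩, h⟩)
          omega
        · exact hv ((lev_mono (by omega)).trans h)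
      calc ∑ j ∈ Jv, (lev j : ℝ≥0∞) * c j ≤ ∑ j ∈ Jv, (lev j : ℝ≥0∞) * c i :=
            Finset.sum_le_sum fun j hj => mul_le_mul' le_rfl (hmono (hmax j hj))
        _ = (∑ j ∈ Jv, (lev j : ℝ≥0∞)) * c i := (Finset.sum_mul _ _ _).symm
        _ ≤ 2 * (lev i : ℝ≥0∞) * c i := mul_le_mul' hgeom le_rfl
        _ ≤ _ := by
            rw [mul_assoc]
            refine mul_le_mul' le_rfl ?_
            refine le_trans (le_of_eq ?_) (Finset.single_le_sum (fun _ _ => zero_le)
              (Finset.mem_Ico.2 hiJ : i ∈ J))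
            simp [hbk]

lemma miss_le (a b : ℤ) (H : ℕ) :
    ∑ j ∈ Finset.Ico a b, ∑ e ∈ nl M, (lev j : ℝ≥0∞) * tailProb D e j * G D M e (j - H) ≤
      2 * Φ D M a b H + tailVal D M b := by
  rw [Finset.sum_comm, Φ, Finset.sum_comm (s := Finset.Ico a b), Finset.mul_sum, tailVal,
    ← Finset.sum_add_distrib]
  refine Finset.sum_le_sum fun e _ => ?_
  have hmi : ∀ j, Measurable fun t : ℝ≥0 =>
      {v | lev j ≤ v}.indicator (fun _ => (lev j : ℝ≥0∞)) t * G D M e (j - H) := fun j =>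
    (measurable_const.indicator (measurableSet_Ici (a := lev j))).mul_const _
  have hmb : ∀ j, Measurable fun t : ℝ≥0 =>
      {v | InBk j v}.indicator (fun _ => (lev j : ℝ≥0∞)) t * G D M e (j - H) := fun j =>
    (measurable_const.indicator (measurableSet_InBk j)).mul_const _
  have h := lintegral_mono (μ := D e) fun v =>
    prefix_le a b v (fun j => G D M e (j - H)) (fun j => G_le_one D M e _)
      (fun i j hij => G_mono D M e (by omega))
  rw [lintegral_finsetSum _ fun j _ => hmi j, lintegral_add_right _ (measurable_tl b),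
    lintegral_const_mul _ (Finset.measurable_sum _ fun j _ => hmb j),
    lintegral_finsetSum _ fun j _ => hmb j] at h
  refine le_trans (le_of_eq (Finset.sum_congr rfl fun j _ => ?_))
    (h.trans (le_of_eq ?_))
  · rw [lintegral_mul_const _ (f := {v | lev j ≤ v}.indicator fun _ => (lev j : ℝ≥0∞))
      (measurable_const.indicator (measurableSet_Ici (a := lev j))), tailProb]
    congr 1
    exact (lintegral_indicator_const (measurableSet_Ici (a := lev j)) _).symm
  · congr 2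
    refine Finset.sum_congr rfl fun j _ => ?_
    rw [lintegral_mul_const _ (measurable_const.indicator (measurableSet_InBk j)), q,
      lintegral_indicator_const (measurableSet_InBk j)]

lemma exists_level : (∃ N : ℤ, 2⁻¹ < pMax D M (N - 1) ∧ pMax D M N ≤ 2⁻¹) ∨
    ∀ n : ℤ, pMax D M n ≤ 2⁻¹ := by
  by_cases h : ∀ n : ℤ, pMax D M n ≤ 2⁻¹
  · exact Or.inr h
  push Not at h
  obtain ⟨n0, hn0⟩ := h
  have hanti : Antitone fun k : ℕ => {x : E → ℝ≥0 | lev (k : ℤ) ≤ maxVal M x} :=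
    fun i j hij x hx => (lev_mono (Int.ofNat_le.2 hij)).trans hx
  have hempty : (⋂ k : ℕ, {x : E → ℝ≥0 | lev (k : ℤ) ≤ maxVal M x}) = ∅ := by
    refine eq_empty_of_forall_notMem fun x hx => ?_
    obtain ⟨k, hk⟩ := pow_unbounded_of_one_lt (maxVal M x) (one_lt_two : (1 : ℝ≥0) < 2)
    have := mem_iInter.1 hx k
    rw [mem_ofPred_eq, lev_natCast] at this
    exact absurd this (not_le.2 hk)
  have ht := tendsto_measure_iInter_atTop (μ := Measure.pi D)
    (fun k : ℕ => (measurableSet_pMax M (k : ℤ)).nullMeasurableSet) hanti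
    ⟨0, measure_ne_top _ _⟩
  rw [hempty, measure_empty] at ht
  obtain ⟨k, hk⟩ := (ht.eventually_lt_const (show (0 : ℝ≥0∞) < 2⁻¹ by simp)).exists
  have hbdd : ∃ B : ℤ, ∀ n : ℤ, 2⁻¹ < pMax D M n → n ≤ B := by
    refine ⟨k, fun n hn => le_of_not_gt fun hlt => ?_⟩
    have : pMax D M n ≤ pMax D M k := measure_mono fun x hx => (lev_mono hlt.le).trans hx
    exact absurd (hn.trans_le this) (not_lt.2 hk.le)
  obtain ⟨g, hg, hgmax⟩ := Int.exists_greatest_of_bdd hbdd ⟨n0, hn0⟩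
  refine Or.inl ⟨g + 1, by simpa using hg, le_of_not_gt fun h => ?_⟩
  have := hgmax _ h
  omega

/-- The number of doubling scales used. -/
noncomputable def scales : ℕ := Nat.clog 2 (Nat.clog 2 M.eRank.toNat + 1)

/-- The seed: three threshold rules, base offsets, and offsets at every scale. -/
abbrev Seed : Type :=
  Unit ⊕ Unit ⊕ Unit ⊕ Fin 33 ⊕ (Σ t : Fin (scales M), Fin (4 * (32 * 2 ^ (t : ℕ))))

/-- Weights of the seeds. -/
noncomputable def weight : Seed M → ℝ≥0∞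
  | .inl _ => ((scales M + 4 : ℕ) : ℝ≥0∞)⁻¹
  | .inr (.inl _) => ((scales M + 4 : ℕ) : ℝ≥0∞)⁻¹
  | .inr (.inr (.inl _)) => ((scales M + 4 : ℕ) : ℝ≥0∞)⁻¹
  | .inr (.inr (.inr (.inl _))) => ((scales M + 4 : ℕ) : ℝ≥0∞)⁻¹ * ((33 : ℕ) : ℝ≥0∞)⁻¹
  | .inr (.inr (.inr (.inr ⟨t, _⟩))) =>
      ((scales M + 4 : ℕ) : ℝ≥0∞)⁻¹ * ((4 * (32 * 2 ^ (t : ℕ)) : ℕ) : ℝ≥0∞)⁻¹

/-- The rule of each seed. -/
noncomputable def seedRule : Seed M → OnlineRule M
  | .inl _ => (geGate M).rule
  | .inr (.inl _) => (gtGate M).rule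
  | .inr (.inr (.inl _)) => (farGate M (2 * (Nat.clog 2 M.eRank.toNat + 1))).rule
  | .inr (.inr (.inr (.inl o))) => (winGate M (o : ℕ) (1 + 32) 1).rule
  | .inr (.inr (.inr (.inr ⟨t, o⟩))) =>
      (winGate M (o : ℕ) (4 * (32 * 2 ^ (t : ℕ))) (2 * (32 * 2 ^ (t : ℕ)))).rule

lemma natCast_mul_inv {m : ℕ} (hm : 0 < m) : (m : ℝ≥0∞) * (m : ℝ≥0∞)⁻¹ = 1 :=
  ENNReal.mul_inv_cancel (by exact_mod_cast hm.ne') (ENNReal.natCast_ne_top m)

lemma weight_sum : ∑ r, weight M r = 1 := by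
  simp only [Fintype.sum_sum_type, Fintype.sum_sigma, weight, Finset.univ_unique,
    Finset.sum_singleton, Finset.sum_const, Finset.card_univ, Fintype.card_fin, nsmul_eq_mul]
  have h33 : ((33 : ℕ) : ℝ≥0∞) * (((scales M + 4 : ℕ) : ℝ≥0∞)⁻¹ * ((33 : ℕ) : ℝ≥0∞)⁻¹) =
      ((scales M + 4 : ℕ) : ℝ≥0∞)⁻¹ := by
    rw [mul_left_comm, natCast_mul_inv (by norm_num), mul_one]
  have hsc : ∀ t : Fin (scales M), ((4 * (32 * 2 ^ (t : ℕ)) : ℕ) : ℝ≥0∞) *
      (((scales M + 4 : ℕ) : ℝ≥0∞)⁻¹ * ((4 * (32 * 2 ^ (t : ℕ)) : ℕ) : ℝ≥0∞)⁻¹) =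
      ((scales M + 4 : ℕ) : ℝ≥0∞)⁻¹ := fun t => by
    rw [mul_left_comm, natCast_mul_inv (by positivity), mul_one]
  rw [h33, Finset.sum_congr rfl fun t _ => hsc t, Finset.sum_const, Finset.card_univ,
    Fintype.card_fin, nsmul_eq_mul]
  rw [← natCast_mul_inv (show 0 < scales M + 4 by omega)]
  simp only [Finset.card_singleton, Nat.cast_one, one_mul]
  push_cast
  ring

lemma weighted_pay :
    ((scales M + 4 : ℕ) : ℝ≥0∞) * ∑ r, weight M r * pay D (seedRule M r) =
      pay D (geGate M).rule + (pay D (gtGate M).rule +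
      (pay D (farGate M (2 * (Nat.clog 2 M.eRank.toNat + 1))).rule +
      (((33 : ℕ) : ℝ≥0∞)⁻¹ * ∑ o ∈ Finset.range 33, pay D (winGate M o (1 + 32) 1).rule +
      ∑ t ∈ Finset.range (scales M), ((4 * (32 * 2 ^ t) : ℕ) : ℝ≥0∞)⁻¹ *
        ∑ o ∈ Finset.range (4 * (32 * 2 ^ t)),
          pay D (winGate M o (4 * (32 * 2 ^ t)) (2 * (32 * 2 ^ t))).rule))) := by
  have hn1 : ∀ x : ℝ≥0∞,
      ((scales M + 4 : ℕ) : ℝ≥0∞) * (((scales M + 4 : ℕ) : ℝ≥0∞)⁻¹ * x) = x := fun x => by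
    rw [← mul_assoc, natCast_mul_inv (by omega), one_mul]
  have hn2 : ∀ c x : ℝ≥0∞,
      ((scales M + 4 : ℕ) : ℝ≥0∞) * (((scales M + 4 : ℕ) : ℝ≥0∞)⁻¹ * c * x) = c * x := fun c x => by
    rw [mul_assoc _ c x, hn1]
  simp only [Fintype.sum_sum_type, Fintype.sum_sigma, weight, seedRule, Finset.univ_unique,
    Finset.sum_singleton, mul_add, Finset.mul_sum, hn1, hn2]
  rw [Fin.sum_univ_eq_sum_range (fun o => ((33 : ℕ) : ℝ≥0∞)⁻¹ *
    pay D (winGate M o (1 + 32) 1).rule)]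
  congr 4
  rw [← Fin.sum_univ_eq_sum_range]
  refine Finset.sum_congr rfl fun t _ => ?_
  rw [Fin.sum_univ_eq_sum_range (fun o => ((4 * (32 * 2 ^ (t : ℕ)) : ℕ) : ℝ≥0∞)⁻¹ *
    pay D (winGate M o (4 * (32 * 2 ^ (t : ℕ))) (2 * (32 * 2 ^ (t : ℕ)))).rule)]

lemma telescope (a b : ℤ) (hab : a ≤ b) (s : ℕ) :
    Φ D M a b 32 ≤ ∑ t ∈ Finset.range s, 4 * (((4 * (32 * 2 ^ t) : ℕ) : ℝ≥0∞)⁻¹ *
        ∑ o ∈ Finset.range (4 * (32 * 2 ^ t)),
          pay D (winGate M o (4 * (32 * 2 ^ t)) (2 * (32 * 2 ^ t))).rule) +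
      (2 * eOpt D M) * ∑ t ∈ Finset.range s, ((32 * 2 ^ t : ℕ) : ℝ≥0∞)⁻¹ +
      Φ D M a b (32 * 2 ^ s) := by
  induction s with
  | zero => simp
  | succ s ih =>
    refine ih.trans ?_
    set m := 32 * 2 ^ s with hm
    have hm0 : 0 < m := by positivity
    have hinv : (m : ℝ≥0∞)⁻¹ * m = 1 := by rw [mul_comm, natCast_mul_inv hm0]
    have h4 : 4 * ((4 * m : ℕ) : ℝ≥0∞)⁻¹ = (m : ℝ≥0∞)⁻¹ := by
      rw [Nat.cast_mul, ENNReal.mul_inv (Or.inl (by norm_num)) (Or.inl (by norm_num)),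
        ← mul_assoc, Nat.cast_ofNat, ENNReal.mul_inv_cancel (by norm_num) (by norm_num), one_mul]
    have hstep : Φ D M a b m ≤ 4 * (((4 * m : ℕ) : ℝ≥0∞)⁻¹ *
        ∑ o ∈ Finset.range (4 * m), pay D (winGate M o (4 * m) (2 * m)).rule) +
        (2 * eOpt D M) * (m : ℝ≥0∞)⁻¹ + Φ D M a b (2 * m) := by
      calc Φ D M a b m = (m : ℝ≥0∞)⁻¹ * ((m : ℝ≥0∞) * Φ D M a b m) := by
            rw [← mul_assoc, hinv, one_mul]
        _ ≤ _ := mul_le_mul' le_rfl (scale_step D M a b hab m hm0)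
        _ = _ := by
            rw [mul_add, mul_add, ← mul_assoc (m : ℝ≥0∞)⁻¹ (m : ℝ≥0∞), hinv, one_mul, ← h4, eOpt]
            ring
    have h2 : 32 * 2 ^ (s + 1) = 2 * m := by rw [hm]; ring
    rw [Finset.sum_range_succ, Finset.sum_range_succ, h2, mul_add (2 * eOpt D M)]
    refine (add_le_add le_rfl hstep).trans (le_of_eq ?_)
    ring

lemma sum_scales_le (s : ℕ) :
    ∑ t ∈ Finset.range s, ((32 * 2 ^ t : ℕ) : ℝ≥0∞)⁻¹ ≤ 16⁻¹ := by
  have h : ∀ t : ℕ, ((32 * 2 ^ t : ℕ) : ℝ≥0∞)⁻¹ = (((32 * 2 ^ t : ℕ) : ℝ≥0)⁻¹ : ℝ≥0) := by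
    intro t
    rw [ENNReal.coe_inv (by positivity), ENNReal.coe_natCast]
  simp only [h]
  rw [← ENNReal.ofNNReal_finsetSum, show (16 : ℝ≥0∞)⁻¹ = ((16⁻¹ : ℝ≥0) : ℝ≥0∞) by
    rw [ENNReal.coe_inv (by norm_num)]; rfl, ENNReal.coe_le_coe]
  have : ∀ s : ℕ, ∑ t ∈ Finset.range s, ((32 * 2 ^ t : ℕ) : ℝ≥0)⁻¹ +
      (((32 * 2 ^ s : ℕ) : ℝ≥0)⁻¹ * 2) = 16⁻¹ := by
    intro s
    induction s with
    | zero => norm_num
    | succ s ih =>
      rw [Finset.sum_range_succ, ← ih]
      push_cast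
      rw [pow_succ]
      field_simp
      ring
  exact le_self_add.trans_eq (this s)

lemma rank_lev_le (n : ℤ) :
    (M.eRank.toNat : ℝ≥0) * lev n ≤ lev (n + (Nat.clog 2 M.eRank.toNat + 1 : ℕ)) := by
  rw [lev_add, mul_comm]
  gcongr
  rw [lev_natCast]
  calc (M.eRank.toNat : ℝ≥0) ≤ ((2 ^ Nat.clog 2 M.eRank.toNat : ℕ) : ℝ≥0) := by
        exact_mod_cast Nat.le_pow_clog (by norm_num) _
    _ ≤ ((2 ^ (Nat.clog 2 M.eRank.toNat + 1) : ℕ) : ℝ≥0) := by
        exact_mod_cast Nat.pow_le_pow_right (by norm_num) (Nat.le_succ _)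
    _ = _ := by push_cast; rfl

lemma eOpt_top_level (n : ℤ) (hn : pMax D M n ≤ 2⁻¹) :
    eOpt D M ≤ 16 * pay D (gtGate M).rule + (M.eRank.toNat : ℝ≥0∞) * lev n := by
  have h := eOpt_band D M n 0
  simp only [Nat.cast_zero, add_zero, Finset.Ico_self, Finset.sum_empty, mul_zero] at h
  refine h.trans (add_le_add ?_ le_rfl)
  calc 2 * tailVal D M n ≤ 2 * (8 * pay D (gtGate M).rule) :=
        mul_le_mul' le_rfl (gt_guarantee D M n hn)
    _ = _ := by ring

/-- Absorb the deterministic losses. -/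
lemma absorb {O X : ℝ≥0∞} (hO : O ≠ ⊤) (h : O ≤ X + O * 2⁻¹) : O ≤ 2 * X := by
  have h2 : O * 2⁻¹ + O * 2⁻¹ ≤ X + O * 2⁻¹ := by
    rwa [← mul_add, ENNReal.inv_two_add_inv_two, mul_one]
  have h3 := ENNReal.le_of_add_le_add_right
    (ENNReal.mul_ne_top hO (ENNReal.inv_ne_top.2 (by norm_num))) h2
  calc O = O * 2⁻¹ + O * 2⁻¹ := by rw [← mul_add, ENNReal.inv_two_add_inv_two, mul_one]
    _ ≤ X + X := add_le_add h3 h3
    _ = 2 * X := (two_mul X).symm

/-- The expected optimum is within a constant of the sum over the families. -/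
lemma eOpt_le_families :
    eOpt D M ≤ 132 * (((scales M + 4 : ℕ) : ℝ≥0∞) * ∑ r, weight M r * pay D (seedRule M r)) := by
  rw [weighted_pay]
  set K := Nat.clog 2 M.eRank.toNat + 1 with hK
  set PA := pay D (geGate M).rule with hPA
  set PB := pay D (gtGate M).rule with hPB
  set PF := pay D (farGate M (2 * K)).rule with hPF
  set SB := ∑ o ∈ Finset.range 33, pay D (winGate M o (1 + 32) 1).rule with hSB
  set ST := ∑ t ∈ Finset.range (scales M), ((4 * (32 * 2 ^ t) : ℕ) : ℝ≥0∞)⁻¹ *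
        ∑ o ∈ Finset.range (4 * (32 * 2 ^ t)),
          pay D (winGate M o (4 * (32 * 2 ^ t)) (2 * (32 * 2 ^ t))).rule with hST
  rcases exists_level D M with ⟨N, hN1, hN2⟩ | hall
  · by_cases htop : eOpt D M = ⊤
    · have h := eOpt_top_level D M N hN2
      rw [htop, top_le_iff, ENNReal.add_eq_top] at h
      rcases h with h | h
      · have hPBtop : PB = ⊤ := by
          by_contra hne
          exact ENNReal.mul_ne_top (by norm_num) hne h
        simp [hPBtop]
      · exact absurd h (ENNReal.mul_ne_top (ENNReal.natCast_ne_top _) ENNReal.coe_ne_top)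
    by_cases hcase : (4⁻¹ : ℝ≥0∞) ≤ pMax D M (N + K)
    · have h16 : (lev (N + K) : ℝ≥0∞) ≤ 32 * PA := by
        have := (mul_le_mul' (le_refl (lev (N + K) : ℝ≥0∞)) (mul_le_mul' hcase hcase)).trans
          (ge_guarantee D M (N + K))
        calc (lev (N + K) : ℝ≥0∞)
            = 16 * ((lev (N + K) : ℝ≥0∞) * (4⁻¹ * 4⁻¹)) := by
              rw [← ENNReal.mul_inv (by norm_num) (by norm_num), mul_left_comm,
                show (4 : ℝ≥0∞) * 4 = 16 by norm_num,
                ENNReal.mul_inv_cancel (by norm_num) (by norm_num), mul_one]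
          _ ≤ 16 * (2 * PA) := mul_le_mul' le_rfl this
          _ = 32 * PA := by ring
      have hr : (M.eRank.toNat : ℝ≥0∞) * lev N ≤ lev (N + K) := by
        exact_mod_cast rank_lev_le M N
      calc eOpt D M ≤ 16 * PB + lev (N + K) := (eOpt_top_level D M N hN2).trans (by gcongr)
        _ ≤ 132 * PB + 132 * PA :=
            add_le_add (mul_le_mul' (by norm_num) le_rfl)
              (h16.trans (mul_le_mul' (by norm_num) le_rfl))
        _ = 132 * (PA + PB) := by ring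
        _ ≤ _ := by
            gcongr
            exact le_self_add
    · set a := N - (K : ℤ) with ha
      have hb : a + (K : ℤ) = N := by omega
      have hA1 : (lev N : ℝ≥0∞) ≤ 16 * PA := by
        have := (mul_le_mul' (le_refl (lev (N - 1) : ℝ≥0∞)) (mul_le_mul' hN1.le hN1.le)).trans
          (ge_guarantee D M (N - 1))
        have hl : (lev N : ℝ≥0∞) = 2 * (lev (N - 1) : ℝ≥0∞) := by
          have := lev_succ (N - 1)
          rw [sub_add_cancel] at this
          exact_mod_cast this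
        calc (lev N : ℝ≥0∞) = 8 * ((lev (N - 1) : ℝ≥0∞) * (2⁻¹ * 2⁻¹)) := by
              rw [hl, ← ENNReal.mul_inv (by norm_num) (by norm_num), mul_left_comm (8 : ℝ≥0∞),
                show (8 : ℝ≥0∞) = 2 * (2 * 2) by norm_num, mul_assoc (2 : ℝ≥0∞) (2 * 2),
                ENNReal.mul_inv_cancel (by norm_num) (by norm_num), mul_one, mul_comm]
          _ ≤ 8 * (2 * PA) := mul_le_mul' le_rfl this
          _ = 16 * PA := by ring
      have hr : (M.eRank.toNat : ℝ≥0∞) * lev a ≤ lev N := by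
        have := rank_lev_le M a
        rw [← hK, hb] at this
        exact_mod_cast this
      have hT : tailVal D M N ≤ 8 * PB := gt_guarantee D M N hN2
      have h1 := eOpt_band D M a K
      rw [hb] at h1
      have h2 : ∑ j ∈ Finset.Ico a N, (lev j : ℝ≥0∞) * f D M j ≤
          SB + ((∑ j ∈ Finset.Ico a N, (lev j : ℝ≥0∞) * f D M (j + 1)) +
            (2 * Φ D M a N 32 + tailVal D M N)) :=
        (count_expected D M a N 32).trans
          (add_le_add le_rfl (add_le_add le_rfl (miss_le D M a N 32)))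
      set F1 := ∑ j ∈ Finset.Ico a N, (lev j : ℝ≥0∞) * f D M (j + 1) with hF1
      have hF1fin : 2 * F1 ≠ ⊤ := ENNReal.mul_ne_top (by norm_num)
        (ENNReal.sum_ne_top.2 fun j _ => ENNReal.mul_ne_top ENNReal.coe_ne_top (f_ne_top D M _))
      have h3 : eOpt D M ≤ 4 * tailVal D M N + (M.eRank.toNat : ℝ≥0∞) * lev a + 2 * SB +
          4 * Φ D M a N 32 := by
        refine ENNReal.le_of_add_le_add_right hF1fin
          (h1.trans ((add_le_add le_rfl (mul_le_mul' le_rfl h2)).trans (le_of_eq ?_)))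
        ring
      have hscale : 2 * (K : ℤ) ≤ ((32 * 2 ^ scales M : ℕ) : ℤ) := by
        have : K ≤ 2 ^ scales M := Nat.le_pow_clog (by norm_num) _
        omega
      set A := {x : E → ℝ≥0 | lev (N - 1) ≤ maxVal M x ∧ maxVal M x < lev (N + K)} with hAdef
      have hA : (4⁻¹ : ℝ≥0∞) ≤ Measure.pi D A := by
        have hsub : {x : E → ℝ≥0 | lev (N - 1) ≤ maxVal M x} ⊆
            A ∪ {x : E → ℝ≥0 | lev (N + K) ≤ maxVal M x} := fun x hx => by
          rcases lt_or_ge (maxVal M x) (lev (N + K)) with h | h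
          exacts [Or.inl ⟨hx, h⟩, Or.inr h]
        have hle : (4⁻¹ : ℝ≥0∞) + 4⁻¹ ≤ Measure.pi D A + 4⁻¹ := by
          calc (4⁻¹ : ℝ≥0∞) + 4⁻¹ = 2⁻¹ := by
                rw [← two_mul, show (4 : ℝ≥0∞) = 2 * 2 by norm_num,
                  ENNReal.mul_inv (by norm_num) (by norm_num), ← mul_assoc,
                  ENNReal.mul_inv_cancel (by norm_num) (by norm_num), one_mul]
            _ ≤ pMax D M (N - 1) := hN1.le
            _ ≤ _ := (measure_mono hsub).trans (measure_union_le _ _)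
            _ ≤ _ := add_le_add le_rfl (le_of_not_ge hcase)
        exact ENNReal.le_of_add_le_add_right (by norm_num) hle
      have hfar : Φ D M a N (32 * 2 ^ scales M) ≤ 4 * PF := by
        set X := ∑ j ∈ Finset.Ico (N - K) N, ∑ e ∈ nl M,
          (lev j : ℝ≥0∞) * q D e j * G D M e (N - 1 - (2 * K : ℕ)) with hX
        have hΦX : Φ D M a N (32 * 2 ^ scales M) ≤ X :=
          Finset.sum_le_sum fun j hj => Finset.sum_le_sum fun e _ =>
            mul_le_mul' le_rfl (G_mono D M e (by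
              have := (Finset.mem_Ico.1 hj).2
              push_cast at hscale ⊢
              omega))
        calc Φ D M a N (32 * 2 ^ scales M) ≤ X := hΦX
          _ = 4 * (4⁻¹ * X) := by
              rw [← mul_assoc, ENNReal.mul_inv_cancel (by norm_num) (by norm_num), one_mul]
          _ ≤ 4 * (Measure.pi D A * X) := by gcongr
          _ ≤ 4 * PF := mul_le_mul' le_rfl (far_guarantee D M N K)
      have htel := telescope D M a N (by omega) (scales M)
      rw [← Finset.mul_sum, ← hST] at htel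
      have h5 : Φ D M a N 32 ≤ 4 * ST + (2 * eOpt D M) * 16⁻¹ + 4 * PF :=
        htel.trans (add_le_add (add_le_add le_rfl (mul_le_mul' le_rfl (sum_scales_le _))) hfar)
      have h6 : eOpt D M ≤ (32 * PB + 16 * PA + 2 * SB + 16 * ST + 16 * PF) +
          eOpt D M * 2⁻¹ := by
        refine h3.trans ?_
        have e1 : 4 * tailVal D M N ≤ 4 * (8 * PB) := mul_le_mul' le_rfl hT
        have e2 : (M.eRank.toNat : ℝ≥0∞) * lev a ≤ 16 * PA := hr.trans hA1
        have e3 : 4 * Φ D M a N 32 ≤ 4 * (4 * ST + (2 * eOpt D M) * 16⁻¹ + 4 * PF) :=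
          mul_le_mul' le_rfl h5
        refine (add_le_add (add_le_add (add_le_add e1 e2) le_rfl) e3).trans (le_of_eq ?_)
        have : (4 : ℝ≥0∞) * (2 * eOpt D M * 16⁻¹) = eOpt D M * 2⁻¹ := by
          rw [show (16 : ℝ≥0∞) = 8 * 2 by norm_num, ENNReal.mul_inv (by norm_num) (by norm_num),
            show (4 : ℝ≥0∞) * (2 * eOpt D M * (8⁻¹ * 2⁻¹)) =
              ((4 * 2) * 8⁻¹) * (eOpt D M * 2⁻¹) by ring,
            show (4 : ℝ≥0∞) * 2 = 8 by norm_num,
            ENNReal.mul_inv_cancel (by norm_num) (by norm_num), one_mul]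
        rw [mul_add, mul_add, this]
        ring
      refine (absorb htop h6).trans ?_
      calc 2 * (32 * PB + 16 * PA + 2 * SB + 16 * ST + 16 * PF)
          = 32 * PA + (64 * PB + (32 * PF +
              (4 * 33 * ((33 : ℕ) : ℝ≥0∞)⁻¹ * SB + 32 * ST))) := by
            rw [show (4 : ℝ≥0∞) * 33 * ((33 : ℕ) : ℝ≥0∞)⁻¹ = 4 by
              rw [mul_assoc, Nat.cast_ofNat, ENNReal.mul_inv_cancel (by norm_num) (by norm_num),
                mul_one]]
            ring
        _ ≤ 132 * PA + (132 * PB + (132 * PF +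
              (132 * ((33 : ℕ) : ℝ≥0∞)⁻¹ * SB + 132 * ST))) := by
            gcongr <;> norm_num
        _ = _ := by ring
  · have hlim : eOpt D M ≤ 16 * PB := by
      have ht : Tendsto (fun k : ℕ =>
          16 * PB + (M.eRank.toNat : ℝ≥0∞) * ((2 : ℝ≥0∞)⁻¹) ^ k) atTop
          (𝓝 (16 * PB + (M.eRank.toNat : ℝ≥0∞) * 0)) :=
        tendsto_const_nhds.add (ENNReal.Tendsto.const_mul
          (ENNReal.tendsto_pow_atTop_nhds_zero_of_lt_one (ENNReal.inv_lt_one.2 (by norm_num)))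
          (Or.inr (ENNReal.natCast_ne_top _)))
      rw [mul_zero, add_zero] at ht
      refine ge_of_tendsto' ht fun k => ?_
      refine (eOpt_top_level D M (-(k : ℤ)) (hall _)).trans (le_of_eq ?_)
      congr 2
      rw [lev, zpow_neg, zpow_natCast, ENNReal.coe_inv (by positivity), ENNReal.coe_pow,
        ENNReal.coe_ofNat, ENNReal.inv_pow]
    refine hlim.trans (mul_le_mul' (by norm_num) ?_)
    exact le_self_add.trans le_add_self

lemma scales_add_four_le :
    132 * (scales M + 4) ≤ 800 * (1 + Nat.log 2 (1 + Nat.log 2 (1 + M.eRank.toNat))) := by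
  have h1 : ∀ n : ℕ, Nat.clog 2 n ≤ Nat.log 2 n + 1 := fun n =>
    Nat.clog_le_of_le_pow (Nat.lt_pow_succ_log_self (by norm_num) n).le
  set L := Nat.log 2 (1 + M.eRank.toNat) with hL
  have h2 : Nat.clog 2 M.eRank.toNat + 1 ≤ (1 + L) * 2 := by
    have a1 := h1 M.eRank.toNat
    have a2 : Nat.log 2 M.eRank.toNat ≤ L := Nat.log_mono_right (by omega)
    omega
  have h3 : scales M ≤ Nat.log 2 (1 + L) + 2 := by
    refine (h1 _).trans ?_
    have := Nat.log_mono_right (b := 2) h2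
    rw [Nat.log_mul_base (by norm_num) (by omega)] at this
    omega
  omega

/-- The guarantee. -/
theorem main : ∃ (R : Type) (_ : Fintype R) (w : R → ℝ≥0∞) (rule : R → OnlineRule M),
    ∑ r, w r = 1 ∧ ∀ (D : E → Measure ℝ≥0) [∀ e, IsProbabilityMeasure (D e)],
      ∫⁻ V, opt M V ∂Measure.pi D ≤
        ((800 * (1 + Nat.log 2 (1 + Nat.log 2 (1 + M.eRank.toNat))) : ℕ) : ℝ≥0∞) *
          ∑ r, w r * ∫⁻ p, worst (rule r) p.1 p.2 ∂(Measure.pi D).prod (Measure.pi D) := by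
  refine ⟨Seed M, inferInstance, weight M, seedRule M, weight_sum M, fun D _ => ?_⟩
  refine (eOpt_le_families D M).trans ?_
  rw [← mul_assoc]
  refine mul_le_mul' ?_ le_rfl
  exact_mod_cast scales_add_four_le M

end Vale.Agent.P331.Windows
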