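import Vale.Agent.P331.Windows.Levels

/-! The optimum against dyadic rank profiles. -/

namespace Vale.Agent.P331.Windows

open MeasureTheory Set
open scoped ENNReal NNReal Classical

/-- `v` lies in the dyadic bucket `j`. -/
def InBk (j : ℤ) (v : ℝ≥0) : Prop := lev j ≤ v ∧ v < lev (j + 1)

lemma InBk.unique {j k : ℤ} {v : ℝ≥0} (hj : InBk j v) (hk : InBk k v) : j = k := by
  rcases lt_trichotomy j k with h | h | h
  · exact absurd (((lev_mono (show j + 1 ≤ k by omega)).trans hk.1).trans_lt hj.2) (lt_irrefl _)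
  · exact h
  · exact absurd (((lev_mono (show k + 1 ≤ j by omega)).trans hj.1).trans_lt hk.2) (lt_irrefl _)

/-- The rounded value of `v` if its bucket is among `s`. -/
noncomputable def wt (s : Finset ℤ) (v : ℝ≥0) : ℝ≥0 := ∑ j ∈ s, if InBk j v then lev j else 0

lemma wt_cases (s : Finset ℤ) (v : ℝ≥0) :
    wt s v = 0 ∨ ∃ j ∈ s, InBk j v ∧ wt s v = lev j := by
  by_cases h : ∃ j ∈ s, InBk j v
  · obtain ⟨j, hj, hb⟩ := h
    refine Or.inr ⟨j, hj, hb, ?_⟩
    rw [wt, Finset.sum_eq_single j (fun k _ hk => if_neg fun hk' => hk (hk'.unique hb))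
      (fun h => absurd hj h), if_pos hb]
  · exact Or.inl (Finset.sum_eq_zero fun j hj => if_neg fun hb => h ⟨j, hj, hb⟩)

/-- The value if it is at least `2 ^ n`. -/
noncomputable def tl (n : ℤ) (v : ℝ≥0) : ℝ≥0 := if lev n ≤ v then v else 0

variable {E : Type} [Fintype E] {M : Matroid E}

lemma lev_rk_le_tl (n : ℤ) (V : E → ℝ≥0) :
    lev n * rk M (above M n V) ≤ ∑ e ∈ nl M, tl n (V e) := by
  have h : rk M (above M n V) ≤ ((nl M).filter fun e => lev n ≤ V e).card := by
    refine (rk_le_ncard M _).trans (le_of_eq ?_)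
    rw [← Set.ncard_coe_finset]
    congr 1
    ext e; simp [above, mem_nl]
  calc lev n * (rk M (above M n V) : ℝ≥0)
      ≤ lev n * ((nl M).filter fun e => lev n ≤ V e).card := by gcongr
    _ ≤ ∑ e ∈ (nl M).filter fun e => lev n ≤ V e, V e := by
        rw [mul_comm, ← nsmul_eq_mul]
        exact Finset.card_nsmul_le_sum _ _ _ fun e he => (Finset.mem_filter.1 he).2
    _ = _ := by simp only [tl, Finset.sum_filter]

lemma band_le {I : Finset E} (hI : M.Indep (I : Set E)) (V : E → ℝ≥0) (k : ℕ) : ∀ a : ℤ,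
    (∑ e ∈ I.filter (fun e => lev a ≤ V e ∧ V e < lev (a + k)), (V e : ℝ)) +
        2 * ∑ j ∈ Finset.Ico a (a + k), (lev j : ℝ) * rk M (above M (j + 1) V) +
        lev a * rk M (above M a V) ≤
      2 * ∑ j ∈ Finset.Ico a (a + k), (lev j : ℝ) * rk M (above M j V) +
        lev (a + k) * rk M (above M (a + k) V) +
        lev a * (I.filter fun e => lev a ≤ V e).card := by
  induction k with
  | zero =>
    intro a
    have h0 : ∀ e ∈ I, ¬(lev a ≤ V e ∧ V e < lev (a + (0 : ℕ))) := fun e _ h => by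
      simp at h; exact h.1.not_gt h.2
    rw [Finset.filter_false_of_mem h0]
    simp only [Finset.sum_empty, Nat.cast_zero, add_zero, Finset.Ico_self, mul_zero, zero_add]
    exact le_add_of_nonneg_right (by positivity)
  | succ k ih =>
    intro a
    have IH := ih (a + 1)
    have e1 : a + 1 + (k : ℤ) = a + ((k + 1 : ℕ) : ℤ) := by push_cast; ring
    rw [e1] at IH
    set b := a + ((k + 1 : ℕ) : ℤ) with hb
    have hab : a + 1 ≤ b := by omega
    have hIco : Finset.Ico a b = insert a (Finset.Ico (a + 1) b) :=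
      (Finset.insert_Ico_add_one_left_eq_Ico (by omega)).symm
    have hna : a ∉ Finset.Ico (a + 1) b := by simp
    rw [hIco, Finset.sum_insert hna, Finset.sum_insert hna]
    set c : ℤ → ℕ := fun n => (I.filter fun e => lev n ≤ V e).card with hc
    have hsub : (I.filter fun e => lev (a + 1) ≤ V e) ⊆ I.filter fun e => lev a ≤ V e :=
      Finset.monotone_filter_right _ fun e _ h => (lev_mono (by omega)).trans h
    have hbk : (I.filter fun e => lev a ≤ V e ∧ V e < lev (a + 1)) =
        (I.filter fun e => lev a ≤ V e) \ (I.filter fun e => lev (a + 1) ≤ V e) := by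
      ext e; simp only [Finset.mem_filter, Finset.mem_sdiff]
      constructor
      · rintro ⟨h1, h2, h3⟩; exact ⟨⟨h1, h2⟩, fun h => h.2.not_gt h3⟩
      · rintro ⟨⟨h1, h2⟩, h3⟩; exact ⟨h1, h2, not_le.1 fun h => h3 ⟨h1, h⟩⟩
    have hsplit : (∑ e ∈ I.filter (fun e => lev a ≤ V e ∧ V e < lev b), (V e : ℝ)) =
        (∑ e ∈ I.filter (fun e => lev a ≤ V e ∧ V e < lev (a + 1)), (V e : ℝ)) +
          ∑ e ∈ I.filter (fun e => lev (a + 1) ≤ V e ∧ V e < lev b), (V e : ℝ) := by
      rw [← Finset.sum_union]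
      · congr 1
        ext e; simp only [Finset.mem_filter, Finset.mem_union]
        constructor
        · rintro ⟨h1, h2, h3⟩
          rcases lt_or_ge (V e) (lev (a + 1)) with h | h
          exacts [Or.inl ⟨h1, h2, h⟩, Or.inr ⟨h1, h, h3⟩]
        · rintro (⟨h1, h2, h3⟩ | ⟨h1, h2, h3⟩)
          exacts [⟨h1, h2, h3.trans_le (lev_mono hab)⟩,
            ⟨h1, (lev_mono (by omega)).trans h2, h3⟩]
      · rw [Finset.disjoint_left]
        intro e he he'
        exact ((Finset.mem_filter.1 he').2.1).not_gt (Finset.mem_filter.1 he).2.2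
    have hbksum : (∑ e ∈ I.filter (fun e => lev a ≤ V e ∧ V e < lev (a + 1)), (V e : ℝ)) ≤
        lev (a + 1) * ((c a : ℝ) - c (a + 1)) := by
      refine (Finset.sum_le_card_nsmul _ _ (lev (a + 1) : ℝ) fun e he => ?_).trans (le_of_eq ?_)
      · exact_mod_cast (Finset.mem_filter.1 he).2.2.le
      · rw [hbk, Finset.card_sdiff_of_subset hsub, nsmul_eq_mul,
          Nat.cast_sub (Finset.card_le_card hsub), mul_comm]
    have hr : (c a : ℝ) ≤ rk M (above M a V) := by
      refine Nat.cast_le.2 (card_le_rk M (hI.subset ?_) ?_)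
      · exact Finset.coe_subset.2 (Finset.filter_subset _ _)
      · intro e he
        have he' := Finset.mem_filter.1 (Finset.mem_coe.1 he)
        exact ⟨hI.isNonloop_of_mem (Finset.mem_coe.2 he'.1), he'.2⟩
    have h2 : (lev (a + 1) : ℝ) = 2 * lev a := by rw [lev_succ]; push_cast; ring
    have hpos : (0 : ℝ) ≤ lev a := (lev a).2
    rw [hsplit]
    simp only [h2] at hbksum IH ⊢
    show _ ≤ _ + (lev a : ℝ) * (c a : ℝ)
    nlinarith

lemma le_tl_add (a b : ℤ) (v : ℝ≥0) :
    v ≤ tl b v + (lev a + if lev a ≤ v ∧ v < lev b then v else 0) := by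
  by_cases hb : lev b ≤ v
  · rw [tl, if_pos hb]; exact le_add_of_nonneg_right (zero_le)
  · by_cases ha : lev a ≤ v
    · rw [if_pos ⟨ha, not_le.1 hb⟩]; exact le_add_of_nonneg_left (zero_le) |>.trans' (le_add_of_nonneg_left zero_le)
    · exact (not_le.1 ha).le.trans (le_add_of_nonneg_left zero_le |>.trans'
        (le_add_of_nonneg_right zero_le))

/-- The optimum against the dyadic rank profile between levels `a` and `a + k`. -/
lemma opt_band_le (V : E → ℝ≥0) (a : ℤ) (k : ℕ) :
    opt M V + 2 * ((∑ j ∈ Finset.Ico a (a + k), lev j * rk M (above M (j + 1) V) : ℝ≥0) : ℝ≥0∞) ≤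
      ((2 * (∑ e ∈ nl M, tl (a + k) (V e)) + M.eRank.toNat * lev a : ℝ≥0) : ℝ≥0∞) +
        2 * ((∑ j ∈ Finset.Ico a (a + k), lev j * rk M (above M j V) : ℝ≥0) : ℝ≥0∞) := by
  have : Nonempty {I : Finset E // M.Indep (I : Set E)} := ⟨⟨∅, by simp⟩⟩
  rw [opt, iSup_subtype', ENNReal.iSup_add]
  refine iSup_le fun ⟨I, hI⟩ => ?_
  rw [← ENNReal.ofNNReal_finsetSum]
  suffices h : ∑ e ∈ I, V e + 2 * ∑ j ∈ Finset.Ico a (a + k), lev j * rk M (above M (j + 1) V) ≤
      2 * (∑ e ∈ nl M, tl (a + k) (V e)) + M.eRank.toNat * lev a +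
        2 * ∑ j ∈ Finset.Ico a (a + k), lev j * rk M (above M j V) by
    exact_mod_cast h
  have hsum : ∑ e ∈ I, V e ≤ ∑ e ∈ nl M, tl (a + k) (V e) + M.eRank.toNat * lev a +
      ∑ e ∈ I.filter (fun e => lev a ≤ V e ∧ V e < lev (a + k)), V e := by
    refine (Finset.sum_le_sum fun e _ => le_tl_add a (a + k) (V e)).trans ?_
    rw [Finset.sum_add_distrib, Finset.sum_add_distrib, add_assoc, Finset.sum_filter,
      Finset.sum_const, nsmul_eq_mul]
    have hIn : I ⊆ nl M := fun e he => (mem_nl M).2 (hI.isNonloop_of_mem (Finset.mem_coe.2 he))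
    have hcard : I.card ≤ M.eRank.toNat :=
      (card_le_rk M hI subset_rfl).trans (rk_le_rank M _)
    gcongr
  have hband := band_le hI V k a
  have hc : ((I.filter fun e => lev a ≤ V e).card : ℝ) ≤ rk M (above M a V) := by
    refine Nat.cast_le.2 (card_le_rk M (hI.subset ?_) ?_)
    · exact Finset.coe_subset.2 (Finset.filter_subset _ _)
    · intro e he
      have he' := Finset.mem_filter.1 (Finset.mem_coe.1 he)
      exact ⟨hI.isNonloop_of_mem (Finset.mem_coe.2 he'.1), he'.2⟩
  have htl := NNReal.coe_le_coe.2 (lev_rk_le_tl (M := M) (a + k) V)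
  rw [← NNReal.coe_le_coe] at hsum ⊢
  push_cast at hsum hband htl ⊢
  nlinarith [mul_le_mul_of_nonneg_left hc (lev a).2]

lemma exists_nested (V : E → ℝ≥0) (k : ℕ) : ∀ a : ℤ, ∃ I : Finset E, M.Indep (I : Set E) ∧
    (↑I ⊆ above M a V) ∧
    ∀ n ∈ Finset.Ico a (a + k), rk M (above M n V) ≤ (I.filter fun e => lev n ≤ V e).card := by
  induction k with
  | zero => exact fun a => ⟨∅, by simp, by simp, by simp⟩
  | succ k ih =>
    intro a
    obtain ⟨I, hI, hIa, hIn⟩ := ih (a + 1)
    obtain ⟨J, hJ, hIJ⟩ := hI.subset_isBasis_of_subset (hIa.trans (above_anti M (show a ≤ a + 1 by omega) V))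
      (fun e he => he.1.mem_ground)
    refine ⟨J.toFinite.toFinset, by simpa using hJ.indep, by simpa using hJ.subset, ?_⟩
    intro n hn
    rw [Finset.mem_Ico] at hn
    rcases eq_or_lt_of_le hn.1 with rfl | hlt
    · have hJr : rk M (above M a V) = J.toFinite.toFinset.card := by
        rw [rk, hJ.eRk_eq_encard, ← Set.Finite.cast_ncard_eq J.toFinite, ENat.toNat_natCast,
          Set.ncard_eq_toFinset_card]
      rw [hJr, Finset.filter_true_of_mem]
      intro e he
      exact (hJ.subset (by simpa using he)).2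
    · refine (hIn n (by rw [Finset.mem_Ico]; omega)).trans (Finset.card_le_card ?_)
      exact Finset.filter_subset_filter _ fun e he => by simpa using hIJ he

lemma geom_le (v : ℝ≥0) (a : ℤ) (k : ℕ) :
    ∑ n ∈ Finset.Ico a (a + k), (if lev n ≤ v then lev n else 0) ≤ 2 * v := by
  suffices h : ∑ n ∈ Finset.Ico a (a + k), (if lev n ≤ v then lev n else 0) ≤ 2 * v ∧
      ∑ n ∈ Finset.Ico a (a + k), (if lev n ≤ v then lev n else 0) ≤ lev (a + k) from h.1
  induction k with
  | zero => simp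
  | succ k ih =>
    have hIco : Finset.Ico a (a + ((k + 1 : ℕ) : ℤ)) = insert (a + k) (Finset.Ico a (a + k)) := by
      ext x; simp only [Finset.mem_insert, Finset.mem_Ico]; omega
    have e2 : a + ((k + 1 : ℕ) : ℤ) = a + k + 1 := by push_cast; ring
    rw [hIco, Finset.sum_insert (by simp), e2, lev_succ, two_mul (lev (a + k))]
    by_cases h : lev (a + k) ≤ v
    · rw [if_pos h]
      refine ⟨?_, add_le_add le_rfl ih.2⟩
      rw [two_mul]
      exact add_le_add h (ih.2.trans h)
    · rw [if_neg h, zero_add]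
      exact ⟨ih.1, ih.2.trans le_self_add⟩

/-- The dyadic rank profile is within twice the optimum. -/
lemma levels_le_opt (V : E → ℝ≥0) (a : ℤ) (k : ℕ) :
    ((∑ n ∈ Finset.Ico a (a + k), lev n * rk M (above M n V) : ℝ≥0) : ℝ≥0∞) ≤ 2 * opt M V := by
  obtain ⟨I, hI, -, hIn⟩ := exists_nested (M := M) V k a
  calc ((∑ n ∈ Finset.Ico a (a + k), lev n * rk M (above M n V) : ℝ≥0) : ℝ≥0∞)
      ≤ ((2 * ∑ e ∈ I, V e : ℝ≥0) : ℝ≥0∞) := by
        refine ENNReal.coe_le_coe.2 ?_
        calc ∑ n ∈ Finset.Ico a (a + k), lev n * (rk M (above M n V) : ℝ≥0)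
            ≤ ∑ n ∈ Finset.Ico a (a + k), ∑ e ∈ I, (if lev n ≤ V e then lev n else 0) := by
              refine Finset.sum_le_sum fun n hn => ?_
              rw [← Finset.sum_filter, Finset.sum_const, nsmul_eq_mul, mul_comm]
              gcongr
              exact hIn n hn
          _ ≤ 2 * ∑ e ∈ I, V e := by
              rw [Finset.sum_comm, Finset.mul_sum]
              exact Finset.sum_le_sum fun e _ => geom_le _ _ _
    _ ≤ 2 * opt M V := by
        push_cast
        exact mul_le_mul' le_rfl (le_iSup₂ (f := fun (J : Finset E) (_ : M.Indep (J : Set E)) =>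
          ∑ e ∈ J, (V e : ℝ≥0∞)) I hI)

end Vale.Agent.P331.Windows
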