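import Vale.Agent.P331.Windows.Levels

/-! Deterministic guarantees of the rules, valid for every arrival order. -/

namespace Vale.Agent.P331.Windows

open MeasureTheory Set
open scoped ENNReal NNReal Classical

variable {E : Type} [Fintype E] {M : Matroid E}

lemma mem_order (π : Fin (Fintype.card E) ≃ E) (e : E) : e ∈ List.ofFn π :=
  List.mem_ofFn.2 ⟨π.symm e, by simp⟩

namespace Gate

variable (g : Gate M) (S V : E → ℝ≥0) (π : Fin (Fintype.card E) ≃ E)

/-- The accepted elements of class `c`, as a finite set. -/
noncomputable def partF (c : ℤ) : Finset E :=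
  Finset.univ.filter fun e => e ∈ g.part S V (List.ofFn π) c

lemma coe_partF (c : ℤ) : (g.partF S V π c : Set E) = g.part S V (List.ofFn π) c := by
  ext; simp [partF]

lemma sum_parts_le (cs : Finset ℤ) :
    ((∑ c ∈ cs, ∑ e ∈ g.partF S V π c, V e : ℝ≥0) : ℝ≥0∞) ≤ payoff g.rule S V π := by
  rw [payoff_rule, ← Finset.sum_biUnion, ENNReal.ofNNReal_finsetSum]
  · refine Finset.sum_le_sum_of_subset fun e he => ?_
    obtain ⟨c, -, hc⟩ := Finset.mem_biUnion.1 he
    simp only [partF, Finset.mem_filter, Finset.mem_univ, true_and] at hc ⊢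
    exact hc.1
  · intro c _ c' _ hne
    simp only [Function.onFun, Finset.disjoint_left, partF, Finset.mem_filter, Finset.mem_univ,
      true_and]
    exact fun a ha ha' => hne (g.cls_unique ha.2 ha'.2)

lemma le_payoff_of_mem {e : E} (he : e ∈ g.out' S V (List.ofFn π)) :
    (V e : ℝ≥0∞) ≤ payoff g.rule S V π := by
  rw [payoff_rule]
  exact Finset.single_le_sum (f := fun e => (V e : ℝ≥0∞)) (fun _ _ => zero_le) (by simpa using he)

end Gate

section thr

variable {T : (E → ℝ≥0) → ℝ≥0 → Prop}
  {hT : ∀ e, MeasurableSet {p : (E → ℝ≥0) × (E → ℝ≥0) | T p.1 (p.2 e)}}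
  (S V : E → ℝ≥0) (π : Fin (Fintype.card E) ≃ E)

lemma thr_maximal {e : E} (he : M.IsNonloop e) (ht : T S (V e)) :
    e ∈ M.closure ((thrGate M T hT).out' S V (List.ofFn π)) := by
  have h := (thrGate M T hT).maximal (S := S) (V := V) (mem_order π e) (c := 0) ⟨rfl, he⟩ ht
  refine M.closure_subset_closure ?_ h
  rintro a (ha | ha)
  · simp [thrGate] at ha
  · exact ha.1

lemma thr_exists {e : E} (he : M.IsNonloop e) (ht : T S (V e)) :
    ∃ f, M.IsNonloop f ∧ f ∈ (thrGate M T hT).out' S V (List.ofFn π) ∧ T S (V f) := by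
  by_contra h
  push Not at h
  have h0 : (thrGate M T hT).out' S V (List.ofFn π) = ∅ := by
    refine Set.eq_empty_of_forall_notMem fun f hf => ?_
    obtain ⟨c, hc, ht'⟩ := (thrGate M T hT).mem_out' hf
    exact h f hc.2 hf ht'
  have := thr_maximal (hT := hT) S V π he ht
  rw [h0, Matroid.closure_empty] at this
  exact (Matroid.isLoop_iff.2 this).not_isNonloop he

lemma thr_bridge {e : E} (he : M.IsNonloop e) (ht : T S (V e))
    (hb : e ∉ M.closure ({f | M.IsNonloop f ∧ T S (V f)} \ {e})) :
    e ∈ (thrGate M T hT).out' S V (List.ofFn π) := by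
  by_contra h
  refine hb (M.closure_subset_closure ?_ (thr_maximal (hT := hT) S V π he ht))
  intro f hf
  obtain ⟨c, hc, ht'⟩ := (thrGate M T hT).mem_out' hf
  exact ⟨⟨hc.2, ht'⟩, fun hfe => h (hfe ▸ hf)⟩

end thr

section win

variable (S V : E → ℝ≥0) (π : Fin (Fintype.card E) ≃ E) {o P W : ℕ} {c lo : ℤ}

/-- The candidates of class `c` lie in the threshold level and are spanned by its class. -/
lemma win_cover (hlo : lo + W = o + (c + 1) * P) :
    above M lo V ∩ M.closure (above M (o + c * P) S) ⊆
      M.closure (above M (lo + W) S ∪ ((winGate M o P W).partF S V π c : Set E)) := by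
  rintro e ⟨he, hel⟩
  rw [hlo, Gate.coe_partF]
  by_cases hh : e ∈ M.closure (above M (o + (c + 1) * P) S)
  · exact M.closure_subset_closure subset_union_left hh
  · refine (winGate M o P W).maximal (mem_order π e) ⟨hel, hh⟩ ?_
    show lev (o + (c + 1) * P - W) ≤ V e
    rw [← hlo, add_sub_cancel_right]
    exact he.2

lemma win_part_sub (hlo : lo + W = o + (c + 1) * P) :
    ((winGate M o P W).partF S V π c : Set E) ⊆
      above M lo V ∩ M.closure (above M (o + c * P) S) := by
  intro f hf
  rw [Gate.coe_partF] at hf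
  obtain ⟨c', hc', ht⟩ := (winGate M o P W).mem_out' hf.1
  obtain rfl : c' = c := (winGate M o P W).cls_unique hc' hf.2
  change lev (o + (c' + 1) * P - W) ≤ V f at ht
  rw [← hlo, add_sub_cancel_right] at ht
  exact ⟨⟨Matroid.isNonloop_of_notMem_closure hf.2.2 ((winGate M o P W).ground hf.2), ht⟩, hf.2.1⟩

/-- Window guarantee: the bridges of the threshold level are accepted, up to the rank contracted,
unless the sample fails to span them. -/
lemma win_bridge (hlo : lo + W = o + (c + 1) * P) (w : E → ℝ≥0)
    (h1 : ∀ e, w e ≤ V e) (h2 : ∀ e, w e ≤ lev (lo + W)) (h3 : ∀ e, w e ≠ 0 → lev lo ≤ V e) :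
    ∑ e ∈ nl M, (if e ∉ M.closure (above M lo V \ {e}) then w e else 0) ≤
      (∑ e ∈ (winGate M o P W).partF S V π c, V e) +
        lev (lo + W) * rk M (above M (lo + W) S) +
        ∑ e ∈ nl M, (if e ∉ M.closure (above M (o + c * P) S \ {e}) then w e else 0) := by
  set X := above M lo V ∩ M.closure (above M (o + c * P) S) with hX
  set A := (winGate M o P W).partF S V π c with hA
  set B : Finset E := (nl M).filter fun e => e ∈ X ∧ e ∉ M.closure (above M lo V \ {e}) with hB
  have hcount : B.card ≤ (A ∩ B).card + rk M (above M (lo + W) S) := by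
    refine bridges_le M (win_part_sub S V π hlo) (win_cover S V π hlo) ?_ ?_
    · intro b hb; exact (Finset.mem_filter.1 hb).2.1
    · intro b hb hcl
      exact (Finset.mem_filter.1 hb).2.2
        (M.closure_subset_closure (sdiff_subset_sdiff_left inter_subset_left) hcl)
  have hsdiff : (B \ A).card ≤ rk M (above M (lo + W) S) := by
    have h := Finset.card_sdiff_add_card_inter B A
    rw [Finset.inter_comm] at hcount
    omega
  calc ∑ e ∈ nl M, (if e ∉ M.closure (above M lo V \ {e}) then w e else 0)
      ≤ ∑ e ∈ nl M, ((if e ∈ X ∧ e ∉ M.closure (above M lo V \ {e}) then w e else 0) +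
          (if e ∉ M.closure (above M (o + c * P) S \ {e}) then w e else 0)) := by
        refine Finset.sum_le_sum fun e he => ?_
        by_cases hb : e ∉ M.closure (above M lo V \ {e})
        · by_cases hw : w e = 0
          · simp [hw]
          · by_cases hel : e ∈ M.closure (above M (o + c * P) S)
            · have hx : e ∈ X := ⟨⟨(mem_nl M).1 he, h3 e hw⟩, hel⟩
              simp [hb, hx]
            · have : e ∉ M.closure (above M (o + c * P) S \ {e}) :=
                fun h => hel (M.closure_subset_closure sdiff_subset h)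
              simp [hb, this]
        · simp [not_not.1 hb]
    _ = ∑ e ∈ B, w e +
          ∑ e ∈ nl M, (if e ∉ M.closure (above M (o + c * P) S \ {e}) then w e else 0) := by
        rw [Finset.sum_add_distrib, hB, Finset.sum_filter]
    _ ≤ _ := by
        gcongr
        rw [← Finset.sum_inter_add_sum_sdiff B A w]
        refine add_le_add ((Finset.sum_le_sum fun e _ => h1 e).trans ?_) ?_
        · exact Finset.sum_le_sum_of_subset Finset.inter_subset_right
        · refine (Finset.sum_le_card_nsmul _ _ _ fun e _ => h2 e).trans ?_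
          rw [nsmul_eq_mul, mul_comm]
          gcongr

/-- Base guarantee: the rank gained at the threshold level, less what the sample fails to span. -/
lemma win_count (hlo : lo + W = o + (c + 1) * P) :
    lev lo * rk M (above M lo V) ≤
      (∑ e ∈ (winGate M o P W).partF S V π c, V e) +
        lev lo * rk M (above M (lo + W) S) +
        ∑ e ∈ nl M, (if lev lo ≤ V e ∧ e ∉ M.closure (above M (o + c * P) S \ {e})
          then lev lo else 0) := by
  set A := (winGate M o P W).partF S V π c with hA
  set D : Finset E := (nl M).filter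
    fun e => lev lo ≤ V e ∧ e ∉ M.closure (above M (o + c * P) S \ {e}) with hD
  have hcount : rk M (above M lo V) ≤ rk M (above M (lo + W) S) + A.card + D.card := by
    refine rk_union_le_cover M ?_
    intro e he
    by_cases hel : e ∈ M.closure (above M (o + c * P) S)
    · exact Or.inl (win_cover S V π hlo ⟨he, hel⟩)
    · exact Or.inr (Finset.mem_filter.2 ⟨(mem_nl M).2 he.1, he.2,
        fun h => hel (M.closure_subset_closure sdiff_subset h)⟩)
  have hA' : lev lo * A.card ≤ ∑ e ∈ A, V e := by
    rw [mul_comm, ← nsmul_eq_mul]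
    refine Finset.card_nsmul_le_sum _ _ _ fun e he => ?_
    exact (win_part_sub S V π hlo (Finset.mem_coe.2 he)).1.2
  have hD' : lev lo * D.card = ∑ e ∈ nl M,
      (if lev lo ≤ V e ∧ e ∉ M.closure (above M (o + c * P) S \ {e}) then lev lo else 0) := by
    rw [← Finset.sum_filter, ← hD, Finset.sum_const, nsmul_eq_mul, mul_comm]
  calc lev lo * (rk M (above M lo V) : ℝ≥0)
      ≤ lev lo * ((rk M (above M (lo + W) S) + A.card + D.card : ℕ) : ℝ≥0) := by
        gcongr
    _ = lev lo * A.card + lev lo * rk M (above M (lo + W) S) + lev lo * D.card := by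
        push_cast; ring
    _ ≤ _ := by rw [hD']; gcongr

end win

end Vale.Agent.P331.Windows
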