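import Vale.Agent.P331.Windows.Gate

/-! Counting lemmas: bridges survive contraction up to the rank of the contracted set. -/

namespace Vale.Agent.P331.Windows

open Set

variable {E : Type} [Finite E] (M : Matroid E)

/-- The rank of a set, as a natural number. -/
noncomputable def rk (X : Set E) : ℕ := (M.eRk X).toNat

lemma eRk_ne_top (X : Set E) : M.eRk X ≠ ⊤ :=
  ne_top_of_le_ne_top (Set.encard_ne_top_iff.2 X.toFinite) (M.eRk_le_encard X)

lemma coe_rk (X : Set E) : (rk M X : ℕ∞) = M.eRk X := ENat.natCast_toNat (eRk_ne_top M X)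

lemma rk_mono {X Y : Set E} (h : X ⊆ Y) : rk M X ≤ rk M Y :=
  ENat.toNat_le_toNat (M.eRk_mono h) (eRk_ne_top M Y)

omit [Finite E] in
lemma rk_closure (X : Set E) : rk M (M.closure X) = rk M X := by
  rw [rk, M.eRk_closure_eq, rk]

lemma rk_union_le (X Y : Set E) : rk M (X ∪ Y) ≤ rk M X + rk M Y := by
  have := M.eRk_union_le_eRk_add_eRk X Y
  rw [← coe_rk, ← coe_rk, ← coe_rk] at this
  exact_mod_cast this

lemma rk_le_ncard (X : Set E) : rk M X ≤ X.ncard := by
  have := M.eRk_le_encard X
  rw [← coe_rk, ← X.toFinite.cast_ncard_eq] at this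
  exact_mod_cast this

lemma rk_le_rank (X : Set E) : rk M X ≤ M.eRank.toNat := by
  refine ENat.toNat_le_toNat (M.eRk_le_eRank X) ?_
  exact ne_top_of_le_ne_top (Set.encard_ne_top_iff.2 M.E.toFinite) M.eRank_le_encard_ground

lemma card_le_rk {I : Finset E} (hI : M.Indep (I : Set E)) {X : Set E} (h : (I : Set E) ⊆ X) :
    I.card ≤ rk M X := by
  have := hI.encard_le_eRk_of_subset h
  rw [← coe_rk, Set.encard_coe_eq_coe_finsetCard] at this
  exact_mod_cast this

lemma rk_insert {X : Set E} {e : E} (he : e ∈ M.E) (h : e ∉ M.closure X) :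
    rk M (insert e X) = rk M X + 1 := by
  have := M.eRk_insert_eq_add_one ⟨he, h⟩
  rw [← coe_rk, ← coe_rk] at this
  exact_mod_cast this

lemma rk_bridges {X : Set E} (B : Finset E) (hBX : (B : Set E) ⊆ X)
    (hE : (B : Set E) ⊆ M.E) (hB : ∀ b ∈ B, b ∉ M.closure (X \ {b})) :
    rk M X = rk M (X \ B) + B.card := by
  classical
  induction B using Finset.induction generalizing X with
  | empty => simp
  | insert b B hb ih =>
    simp only [Finset.coe_insert, Set.insert_subset_iff] at hBX hE
    have h1 : rk M X = rk M (X \ {b}) + 1 := by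
      conv_lhs => rw [← Set.insert_sdiff_self_of_mem hBX.1]
      exact rk_insert M hE.1 (hB b (by simp))
    have h2 : rk M (X \ {b}) = rk M ((X \ {b}) \ B) + B.card := by
      refine ih ?_ hE.2 fun c hc => fun hcl => hB c (by simp [hc]) ?_
      · exact fun c hc => ⟨hBX.2 hc, fun h => hb (by simpa [Set.mem_singleton_iff.1 h] using hc)⟩
      · exact M.closure_subset_closure (Set.sdiff_subset_sdiff_left Set.sdiff_subset) hcl
    rw [h1, h2, Finset.card_insert_of_notMem hb, Finset.coe_insert,
      Set.sdiff_sdiff, Set.singleton_union, add_assoc]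

/-- If `A ⊆ X` spans `X` together with `Z`, it holds all but `rk Z` of the bridges of `X`. -/
lemma bridges_le [DecidableEq E] {X Z : Set E} {A B : Finset E} (hAX : (A : Set E) ⊆ X)
    (hX : X ⊆ M.closure (Z ∪ A)) (hBX : (B : Set E) ⊆ X)
    (hB : ∀ b ∈ B, b ∉ M.closure (X \ {b})) :
    B.card ≤ (A ∩ B).card + rk M Z := by
  have hE : (B : Set E) ⊆ M.E := (hBX.trans hX).trans (M.closure_subset_ground _)
  have h1 := rk_bridges M B hBX hE hB
  have h2 : rk M X ≤ rk M Z + rk M (A : Set E) := by
    refine le_trans (rk_mono M hX) ?_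
    rw [rk_closure]
    exact rk_union_le M _ _
  have h3 : rk M (A : Set E) ≤ rk M (X \ B) + (A ∩ B).card := by
    have hsub : (A : Set E) ⊆ (X \ B) ∪ ↑(A ∩ B) := by
      intro a ha
      by_cases h : a ∈ B
      · exact Or.inr (by simp [Finset.mem_coe.1 ha, h])
      · exact Or.inl ⟨hAX ha, h⟩
    refine (rk_mono M hsub).trans ((rk_union_le M _ _).trans ?_)
    exact Nat.add_le_add_left ((rk_le_ncard M _).trans (Set.ncard_coe_finset _).le) _
  omega

/-- What is not spanned by `Z ∪ A` counts one each. -/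
lemma rk_union_le_cover {X Z : Set E} {A D : Finset E}
    (hX : X ⊆ M.closure (Z ∪ A) ∪ D) : rk M X ≤ rk M Z + A.card + D.card := by
  refine (rk_mono M hX).trans ((rk_union_le M _ _).trans ?_)
  rw [rk_closure]
  refine Nat.add_le_add ((rk_union_le M _ _).trans ?_) ?_
  · exact Nat.add_le_add_left ((rk_le_ncard M _).trans (Set.ncard_coe_finset _).le) _
  · exact (rk_le_ncard M _).trans (Set.ncard_coe_finset _).le

end Vale.Agent.P331.Windows
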