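import Vale.Agent.P331.Windows.Family

/-! Threshold rules: the largest sample value, strictly above it, and a small fraction of it. -/

namespace Vale.Agent.P331.Windows

open MeasureTheory Set
open scoped ENNReal NNReal Classical

variable {E : Type} [Fintype E] (D : E → Measure ℝ≥0) [∀ e, IsProbabilityMeasure (D e)]
  (M : Matroid E)

lemma measurable_eval_snd (e : E) : Measurable fun p : (E → ℝ≥0) × (E → ℝ≥0) => p.2 e :=
  (measurable_pi_apply e).comp measurable_snd

lemma measurable_max_fst : Measurable fun p : (E → ℝ≥0) × (E → ℝ≥0) => maxVal M p.1 :=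
  (measurable_maxVal M).comp measurable_fst

/-- Greedy at the largest sample value. -/
noncomputable def geGate : Gate M :=
  thrGate M (fun S v => maxVal M S ≤ v) fun e =>
    measurableSet_le (measurable_max_fst M) (measurable_eval_snd e)

/-- Greedy strictly above the largest sample value. -/
noncomputable def gtGate : Gate M :=
  thrGate M (fun S v => maxVal M S < v) fun e =>
    measurableSet_lt (measurable_max_fst M) (measurable_eval_snd e)

/-- Greedy above a fraction `2 ^ (-s)` of the largest sample value. -/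
noncomputable def farGate (s : ℕ) : Gate M :=
  thrGate M (fun S v => maxVal M S * lev (-s) ≤ v) fun e =>
    measurableSet_le ((measurable_max_fst M).mul_const _) (measurable_eval_snd e)

/-- The probability that some nonloop reaches level `n`. -/
noncomputable def pMax (n : ℤ) : ℝ≥0∞ := Measure.pi D {x | lev n ≤ maxVal M x}

lemma measurableSet_pMax (n : ℤ) : MeasurableSet {x : E → ℝ≥0 | lev n ≤ maxVal M x} :=
  measurableSet_le measurable_const (measurable_maxVal M)

lemma measurableSet_max_le {g : (E → ℝ≥0) × (E → ℝ≥0) → ℝ≥0} (hg : Measurable g) :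
    MeasurableSet {p | maxVal M p.1 ≤ g p} :=
  measurableSet_le (measurable_max_fst M) hg

lemma measurableSet_le_max {g : (E → ℝ≥0) × (E → ℝ≥0) → ℝ≥0} (hg : Measurable g) :
    MeasurableSet {p | g p ≤ maxVal M p.1} :=
  measurableSet_le hg (measurable_max_fst M)

lemma measurableSet_max_lt (c : ℝ≥0) : MeasurableSet {x : E → ℝ≥0 | maxVal M x < c} :=
  measurableSet_lt (measurable_maxVal M) measurable_const

lemma ge_guarantee (n : ℤ) :
    (lev n : ℝ≥0∞) * (pMax D M n * pMax D M n) ≤ 2 * pay D (geGate M).rule := by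
  set A := {x : E → ℝ≥0 | lev n ≤ maxVal M x} with hA
  set C := {p : (E → ℝ≥0) × (E → ℝ≥0) | p.1 ∈ A ∧ p.2 ∈ A ∧ maxVal M p.1 ≤ maxVal M p.2}
    with hC
  have hCm : MeasurableSet C :=
    (measurable_fst (measurableSet_pMax M n)).inter ((measurable_snd (measurableSet_pMax M n)).inter
      (measurableSet_max_le M (g := fun p => maxVal M p.2)
        ((measurable_maxVal M).comp measurable_snd)))
  have h1 : (lev n : ℝ≥0∞) * (Measure.pi D).prod (Measure.pi D) C ≤ pay D (geGate M).rule := by
    rw [← lintegral_indicator_const hCm, pay]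
    refine lintegral_mono fun p => ?_
    by_cases hp : p ∈ C
    · rw [indicator_of_mem hp]
      refine le_iInf fun π => ?_
      obtain ⟨h1, h2, h3⟩ := hp
      have hne : (nl M).Nonempty := by
        rw [Finset.nonempty_iff_ne_empty]
        intro h
        have : lev n ≤ maxVal M p.2 := h2
        simp [maxVal, h] at this
        exact (lev_pos n).ne' this
      obtain ⟨e, he, hmax⟩ := Finset.exists_mem_eq_sup (nl M) hne p.2
      obtain ⟨g, -, hg, ht⟩ := thr_exists (M := M) (T := fun S v => maxVal M S ≤ v)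
        (hT := fun e => measurableSet_le (measurable_max_fst M) (measurable_eval_snd e))
        p.1 p.2 π ((mem_nl M).1 he) (le_of_le_of_eq h3 hmax)
      refine le_trans (ENNReal.coe_le_coe.2 ?_) ((geGate M).le_payoff_of_mem p.1 p.2 π hg)
      exact le_trans h1 ht
    · rw [indicator_of_notMem hp]; exact zero_le
  calc (lev n : ℝ≥0∞) * (pMax D M n * pMax D M n)
      ≤ (lev n : ℝ≥0∞) * (2 * (Measure.pi D).prod (Measure.pi D) C) :=
        mul_le_mul' le_rfl (prod_le_swap (Measure.pi D) A (maxVal M))
    _ = 2 * ((lev n : ℝ≥0∞) * (Measure.pi D).prod (Measure.pi D) C) := by ring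
    _ ≤ _ := mul_le_mul' le_rfl h1

/-- The largest value of a nonloop other than `e`. -/
noncomputable def maxEx (e : E) (x : E → ℝ≥0) : ℝ≥0 := ((nl M).erase e).sup x

lemma measurable_maxEx (e : E) : Measurable (maxEx M e) := by
  unfold maxEx
  induction (nl M).erase e using Finset.induction with
  | empty => simp only [Finset.sup_empty]; exact measurable_const
  | insert a s _ ih =>
    simp only [Finset.sup_insert]
    exact (measurable_pi_apply a).max ih

lemma maxEx_update (e : E) (x : E → ℝ≥0) (t : ℝ≥0) :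
    maxEx M e (Function.update x e t) = maxEx M e x :=
  Finset.sup_congr rfl fun f hf => Function.update_of_ne (Finset.mem_erase.1 hf).1 _ _

lemma maxEx_le (e : E) (x : E → ℝ≥0) : maxEx M e x ≤ maxVal M x :=
  Finset.sup_mono (Finset.erase_subset _ _)

lemma measurable_tl (n : ℤ) : Measurable fun v => (tl n v : ℝ≥0∞) :=
  (Measurable.ite (measurableSet_Ici (a := lev n)) measurable_id measurable_const).coe_nnreal_ennreal

/-- Expected value at or above level `n`. -/
noncomputable def tailVal (n : ℤ) : ℝ≥0∞ := ∑ e ∈ nl M, ∫⁻ t, (tl n t : ℝ≥0∞) ∂D e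

lemma gt_guarantee (b : ℤ) (hb : pMax D M b ≤ 2⁻¹) :
    tailVal D M b ≤ 8 * pay D (gtGate M).rule := by
  set μ := Measure.pi D with hμ
  set H : E → Set ((E → ℝ≥0) × (E → ℝ≥0)) := fun e =>
    {p | maxVal M p.1 < lev b ∧ maxEx M e p.2 < lev b ∧ maxEx M e p.2 ≤ maxVal M p.1} with hH
  have hHm : ∀ e, MeasurableSet (H e) := fun e =>
    (measurable_fst (measurableSet_max_lt M (lev b))).inter
      ((measurable_snd ((measurable_maxEx M e) (measurableSet_Iio (a := lev b)))).inter
        (measurableSet_le_max M (g := fun p => maxEx M e p.2)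
          ((measurable_maxEx M e).comp measurable_snd)))
  have hHprob : ∀ e, 8⁻¹ ≤ μ.prod μ (H e) := by
    intro e
    set A := {x : E → ℝ≥0 | maxVal M x < lev b} with hA
    have hAc : A = {x : E → ℝ≥0 | lev b ≤ maxVal M x}ᶜ := by ext x; simp [hA]
    have hA2 : (2⁻¹ : ℝ≥0∞) ≤ μ A := by
      rw [hAc, prob_compl_eq_one_sub (measurableSet_pMax M b), ← ENNReal.one_sub_inv_two]
      exact tsub_le_tsub_left hb _
    have h := (prod_le_swap μ A (maxVal M)).trans' (mul_le_mul' hA2 hA2)
    have hsub : μ.prod μ {p | p.1 ∈ A ∧ p.2 ∈ A ∧ maxVal M p.1 ≤ maxVal M p.2} ≤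
        μ.prod μ (H e) := by
      have hmp : MeasurePreserving (Prod.swap : (E → ℝ≥0) × (E → ℝ≥0) → _) (μ.prod μ) (μ.prod μ) :=
        ⟨measurable_swap, Measure.prod_swap⟩
      rw [← hmp.measure_preimage_emb MeasurableEquiv.prodComm.measurableEmbedding]
      refine measure_mono fun p hp => ?_
      obtain ⟨h1, h2, h3⟩ := hp
      exact ⟨h2, (maxEx_le M e p.2).trans_lt h1, (maxEx_le M e p.2).trans h3⟩
    have h2 := h.trans (mul_le_mul' le_rfl hsub)
    rw [← ENNReal.inv_mul_le_iff (by norm_num) (by norm_num)] at h2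
    refine le_trans (le_of_eq ?_) h2
    rw [← ENNReal.mul_inv (by norm_num) (by norm_num), ← ENNReal.mul_inv (by norm_num) (by norm_num)]
    norm_num
  have hint : ∀ e, ∫⁻ p, (tl b (p.2 e) : ℝ≥0∞) * (H e).indicator 1 p ∂μ.prod μ =
      (∫⁻ t, (tl b t : ℝ≥0∞) ∂D e) * μ.prod μ (H e) := by
    intro e
    have hm : Measurable fun p : (E → ℝ≥0) × (E → ℝ≥0) =>
        (tl b (p.2 e) : ℝ≥0∞) * (H e).indicator 1 p :=
      ((measurable_tl b).comp (measurable_eval_snd e)).mul
        (measurable_one.indicator (hHm e))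
    rw [lintegral_prod _ hm.aemeasurable, Measure.prod_apply (hHm e),
      ← lintegral_const_mul _ (measurable_measure_prodMk_left (hHm e))]
    refine lintegral_congr fun x => ?_
    have hinv : ∀ y t, (H e).indicator (1 : (E → ℝ≥0) × (E → ℝ≥0) → ℝ≥0∞)
        (x, Function.update y e t) = (H e).indicator 1 (x, y) := by
      intro y t
      simp only [indicator_apply, hH, mem_ofPred_eq, maxEx_update, Pi.one_apply]
    rw [lintegral_coord D e (measurable_tl b)
      (H := fun y => (H e).indicator 1 (x, y))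
      ((measurable_one.indicator (hHm e)).comp measurable_prodMk_left) hinv]
    congr 1
    rw [← lintegral_indicator_one (measurable_prodMk_left (hHm e))]
    rfl
  have hpt : ∀ p : (E → ℝ≥0) × (E → ℝ≥0),
      ∑ e ∈ nl M, (tl b (p.2 e) : ℝ≥0∞) * (H e).indicator 1 p ≤
        worst (gtGate M).rule p.1 p.2 := by
    intro p
    by_cases h : ∃ e ∈ nl M, lev b ≤ p.2 e ∧ p ∈ H e
    · obtain ⟨e, he, hev, hp⟩ := h
      refine le_iInf fun π => ?_
      rw [Finset.sum_eq_single e (fun f hf hfe => ?_) fun h => absurd he h]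
      · have hlt : maxVal M p.1 < p.2 e := hp.1.trans_le hev
        obtain ⟨g, hgn, hg, ht⟩ := thr_exists (M := M) (T := fun S v => maxVal M S < v)
          (hT := fun e => measurableSet_lt (measurable_max_fst M) (measurable_eval_snd e))
          p.1 p.2 π ((mem_nl M).1 he) hlt
        have hge : g = e := by
          by_contra hne
          have : p.2 g ≤ maxEx M e p.2 :=
            Finset.le_sup (f := p.2) (Finset.mem_erase.2 ⟨hne, (mem_nl M).2 hgn⟩)
          exact absurd ht (not_lt.2 (this.trans hp.2.2))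
        subst hge
        rw [indicator_of_mem hp, Pi.one_apply, mul_one, tl, if_pos hev]
        exact (gtGate M).le_payoff_of_mem p.1 p.2 π hg
      · have : p.2 f ≤ maxEx M e p.2 := Finset.le_sup (f := p.2) (Finset.mem_erase.2 ⟨hfe, hf⟩)
        rw [tl, if_neg (not_le.2 (this.trans_lt hp.2.1))]; simp
    · refine le_trans (le_of_eq (Finset.sum_eq_zero fun e he => ?_)) zero_le
      by_cases hev : lev b ≤ p.2 e
      · rw [indicator_of_notMem fun hp => h ⟨e, he, hev, hp⟩, mul_zero]
      · rw [tl, if_neg hev]; simp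
  have hmH : ∀ e, Measurable fun p : (E → ℝ≥0) × (E → ℝ≥0) =>
      (tl b (p.2 e) : ℝ≥0∞) * (H e).indicator 1 p := fun e =>
    ((measurable_tl b).comp (measurable_eval_snd e)).mul (measurable_one.indicator (hHm e))
  calc tailVal D M b
      ≤ ∑ e ∈ nl M, 8 * ((∫⁻ t, (tl b t : ℝ≥0∞) ∂D e) * μ.prod μ (H e)) := by
        refine Finset.sum_le_sum fun e _ => ?_
        calc ∫⁻ t, (tl b t : ℝ≥0∞) ∂D e = (∫⁻ t, (tl b t : ℝ≥0∞) ∂D e) * (8 * 8⁻¹) := by
              rw [ENNReal.mul_inv_cancel (by norm_num) (by norm_num), mul_one]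
          _ ≤ (∫⁻ t, (tl b t : ℝ≥0∞) ∂D e) * (8 * μ.prod μ (H e)) := by
              gcongr; exact hHprob e
          _ = _ := by ring
    _ = 8 * ∫⁻ p, ∑ e ∈ nl M, (tl b (p.2 e) : ℝ≥0∞) * (H e).indicator 1 p ∂μ.prod μ := by
        rw [lintegral_finsetSum _ fun e _ => hmH e, Finset.mul_sum]
        exact Finset.sum_congr rfl fun e _ => by rw [hint e]
    _ ≤ 8 * pay D (gtGate M).rule := by rw [pay]; gcongr; exact hpt _

lemma far_guarantee (b : ℤ) (K : ℕ) :
    Measure.pi D {x | lev (b - 1) ≤ maxVal M x ∧ maxVal M x < lev (b + K)} *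
        (∑ j ∈ Finset.Ico (b - K) b, ∑ e ∈ nl M,
          (lev j : ℝ≥0∞) * q D e j * G D M e (b - 1 - (2 * K : ℕ))) ≤
      pay D (farGate M (2 * K)).rule := by
  set A := {x : E → ℝ≥0 | lev (b - 1) ≤ maxVal M x ∧ maxVal M x < lev (b + K)} with hA
  have hAm : MeasurableSet A := (measurableSet_pMax M _).inter (measurableSet_max_lt M _)
  set h0 := b - 1 - ((2 * K : ℕ) : ℤ) with hh0
  set J := Finset.Ico (b - K) b with hJ
  have hm : Measurable fun y : E → ℝ≥0 =>
      ∑ e ∈ nl M, (wt J (y e) : ℝ≥0∞) * free M e h0 y :=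
    Finset.measurable_sum _ fun e _ =>
      (((measurable_wt J).comp (measurable_pi_apply e)).coe_nnreal_ennreal).mul
        (measurable_free M e h0)
  have h1 : ∫⁻ y, (∑ e ∈ nl M, (wt J (y e) : ℝ≥0∞) * free M e h0 y) ∂Measure.pi D =
      ∑ j ∈ J, ∑ e ∈ nl M, (lev j : ℝ≥0∞) * q D e j * G D M e h0 := by
    have hme : ∀ e, Measurable fun y : E → ℝ≥0 => (wt J (y e) : ℝ≥0∞) * free M e h0 y := fun e =>
      (((measurable_wt J).comp (measurable_pi_apply e)).coe_nnreal_ennreal).mul
        (measurable_free M e h0)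
    rw [lintegral_finsetSum _ fun e _ => hme e, Finset.sum_comm]
    refine Finset.sum_congr rfl fun e _ => ?_
    rw [lintegral_coord D e (measurable_wt J).coe_nnreal_ennreal (measurable_free M e h0)
      (free_update M e h0), lintegral_free, lintegral_wt, Finset.sum_mul]
  rw [← h1, ← lintegral_indicator_one hAm, ← lintegral_prod_mul
    (measurable_one.indicator hAm).aemeasurable hm.aemeasurable, pay]
  refine lintegral_mono fun p => ?_
  by_cases hp : p.1 ∈ A
  · rw [indicator_of_mem hp, Pi.one_apply, one_mul]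
    refine le_iInf fun π => ?_
    rw [Gate.payoff_rule]
    refine le_trans (Finset.sum_le_sum (g := fun e => if e ∈ (farGate M (2 * K)).out' p.1 p.2
      (List.ofFn π) then (p.2 e : ℝ≥0∞) else 0) fun e he => ?_) ?_
    · rcases wt_cases J (p.2 e) with hw | ⟨j, hj, hb', hw⟩
      · rw [hw]; simp
      · by_cases hfree : e ∉ M.closure (above M h0 p.2 \ {e})
        · have hlo : lev h0 ≤ maxVal M p.1 * lev (-((2 * K : ℕ) : ℤ)) := by
            rw [hh0, sub_eq_add_neg, lev_add]
            exact mul_le_mul' hp.1 le_rfl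
          have hhi : maxVal M p.1 * lev (-((2 * K : ℕ) : ℤ)) ≤ p.2 e := by
            refine le_trans ?_ hb'.1
            refine le_trans (mul_le_mul' hp.2.le le_rfl) ?_
            rw [← lev_add]
            exact lev_mono (by have := (Finset.mem_Ico.1 hj).1; push_cast; omega)
          have hout : e ∈ (farGate M (2 * K)).out' p.1 p.2 (List.ofFn π) := by
            refine thr_bridge (M := M) (T := fun S v => maxVal M S * lev (-((2 * K : ℕ) : ℤ)) ≤ v)
              (hT := fun e => measurableSet_le ((measurable_max_fst M).mul_const _)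
                (measurable_eval_snd e)) p.1 p.2 π ((mem_nl M).1 he) hhi fun hcl => hfree ?_
            exact M.closure_subset_closure (sdiff_subset_sdiff_left
              (show {f | M.IsNonloop f ∧ maxVal M p.1 * lev (-((2 * K : ℕ) : ℤ)) ≤ p.2 f} ⊆
                above M h0 p.2 from fun f hf => ⟨hf.1, hlo.trans hf.2⟩)) hcl
          rw [if_pos hout, free, if_pos hfree, mul_one, hw, ENNReal.coe_le_coe]
          exact hb'.1
        · rw [free, if_neg hfree, mul_zero]; exact zero_le
    · rw [← Finset.sum_filter]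
      exact Finset.sum_le_sum_of_subset fun e he => by
        simp only [Finset.mem_filter, Finset.mem_univ, true_and] at he ⊢
        exact he.2
  · rw [indicator_of_notMem hp, zero_mul]; exact zero_le

end Vale.Agent.P331.Windows
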